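import Vale.Agent.P247F.Alg
import Vale.Agent.P247.Bdl.B1

/-!
# P247T: pointwise algebra for the flat end
-/

set_option linter.all false

open scoped BigOperators ContDiff Topology
open Set

namespace Vale.Agent.P247T

open Vale.Agent.P247 Vale.Agent.P204.T4 Vale.Agent.P204.Mfd
open Vale.Agent.P247.SCY (tam Jm Nm dsc ev_Jm ev_Jm' isCx_Jm app_Jm ev_Nm ev_Nm' tam_pos tam_pull
  isCx_tam pull_tam_B pull_tam_C ev_anti sg sg_sq app_smulM det_matL)

theorem B_eq_Q (a b : V6) : B a b = Q a b := rfl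

theorem coord_eq (α : Form2) : coord α = compL α := by
  funext k
  fin_cases k <;> rfl

theorem ev_coord (α : Form2) (v w : R4) : ev (coord α) v w = α ![v, w] := by
  rw [coord_eq]; exact ev_compL α v w

theorem coord_comp (α : Form2) (L : R4 →L[ℝ] R4) :
    coord (α.compContinuousLinearMap L) = pull (matL L) (coord α) := by
  rw [coord_eq, coord_eq]; exact compL_comp α L

theorem d3_iff {a b z : V6} : Def3c a b z ↔ SCY.Def3 1 z a b := by
  constructor
  · intro h x y w hne
    have := h y w x (by tauto)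
    rw [one_mul, show x • z + y • a + w • b = y • a + w • b + x • z by abel]
    exact this
  · intro h x y w hne
    have := h w x y (by tauto)
    rw [one_mul, show w • z + x • a + y • b = x • a + y • b + w • z by abel] at this
    exact this

theorem d3_tri {a b z : V6} (h : Def3c a b z) {x k y c d r : ℝ} (hx : x ≠ 0) (hy : y ≠ 0)
    (hr : r ≠ 0) : Def3c (x • a) (k • a + y • b) (c • a + d • b + r • z) := by
  intro p q s hne
  have e : p • x • a + q • (k • a + y • b) + s • (c • a + d • b + r • z) =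
      (p * x + q * k + s * c) • a + (q * y + s * d) • b + (s * r) • z := by module
  rw [e]
  apply h
  by_contra hcon
  push Not at hcon
  obtain ⟨h1, h2, h3⟩ := hcon
  have hs : s = 0 := (mul_eq_zero.1 h3).resolve_right hr
  rw [hs, zero_mul, add_zero] at h1 h2
  have hq : q = 0 := (mul_eq_zero.1 h2).resolve_right hy
  rw [hq, zero_mul, add_zero] at h1
  have hp : p = 0 := (mul_eq_zero.1 h1).resolve_right hx
  tauto

theorem isOpen_d3 : IsOpen {p : V6 × V6 × V6 | Def3c p.1 p.2.1 p.2.2} := by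
  have e : {p : V6 × V6 × V6 | Def3c p.1 p.2.1 p.2.2} =
      ({p | 0 < B p.1 p.1} ∩ {p | 0 < gd p.1 p.2.1}) ∩ {p | 0 < Dl p.1 p.2.1 p.2.2} := by
    ext p
    simp only [mem_setOf_eq, mem_inter_iff, def3c_iff]
    exact ⟨fun h => ⟨⟨h.1.pos, h.1.det⟩, h.2⟩, fun h => ⟨⟨h.1.1, h.1.2⟩, h.2⟩⟩
  rw [e]
  refine ((isOpen_lt continuous_const ?_).inter (isOpen_lt continuous_const ?_)).inter
    (isOpen_lt continuous_const ?_)
  · unfold B; fun_prop
  · unfold gd B; fun_prop
  · unfold Dl P247.DB gd B; fun_prop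

theorem d3_eventually {Y : Type*} [TopologicalSpace Y] {a b z : Y → V6} {y : Y}
    (ha : ContinuousAt a y) (hb : ContinuousAt b y) (hz : ContinuousAt z y)
    (h : Def3c (a y) (b y) (z y)) : ∀ᶠ y' in 𝓝 y, Def3c (a y') (b y') (z y') :=
  (ha.prodMk (hb.prodMk hz)).eventually (isOpen_d3.mem_nhds (x := (a y, b y, z y)) h)

theorem d3_pull {a b z : V6} (h : Def3c a b z) {P : M4} (hP : 0 < det4 P) :
    Def3c (pull P a) (pull P b) (pull P z) := by
  intro x y w hne
  rw [← pull_smul, ← pull_smul, ← pull_smul, ← pull_add, ← pull_add, B_eq_Q, Q_pull]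
  exact mul_pos hP (h x y w hne)

/-- `σ` is nonnegative on the complex lines of the structure of the pair `a`, `b` tamed by `f` -/
def Sm (a b f σ : V6) : Prop := ∀ ξ, 0 ≤ ev σ ξ (app (tam f a b) ξ)

theorem tam_eq_of_five {a b f g : V6} (ha : a 5 = 0) (hb : b 5 = 0) (h : Def3c a b f)
    (h' : Def3c a b g) (hf : 0 < f 5) (hg : 0 < g 5) : tam g a b = tam f a b := by
  refine P247F.tam_eq_of_tame (d3_iff.1 h) (P247F.tame_of_seg (s := 1) fun r hr => d3_iff.1 ?_)
  have h1 := convex_cone ha hb h.pairPos (x := f) ⟨hf, h.dl⟩ (y := g) ⟨hg, h'.dl⟩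
    (a := 1 - r) (b := r) (by linarith [hr.2]) hr.1 (by ring)
  rw [show f + r • (g - f) = (1 - r) • f + r • g by module]
  exact def3c_of h.pairPos h1.2

theorem sm_self {a b f : V6} (h : Def3c a b f) : Sm a b f f := by
  intro ξ
  by_cases h0 : ξ = 0
  · rw [h0]; simp [ev_eq]
  · exact (tam_pos (d3_iff.1 h) h0).le

theorem d3_semi {a b g σ : V6} (h : Def3c a b g) (hs : Sm a b g σ) {s r : ℝ} (h0 : 0 ≤ s)
    (hr : 0 < r) : Def3c a b (s • σ + r • g) := by
  refine d3_iff.2 (P247F.def3_of_tame (d3_iff.1 h) fun v hv => ?_)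
  rw [ev_add, ev_smul, ev_smul]
  have h1 := mul_nonneg h0 (hs v)
  have h2 := mul_pos hr (tam_pos (d3_iff.1 h) hv)
  linarith

theorem bij_of_det {L : R4 →L[ℝ] R4} (h : L.det ≠ 0) : Function.Bijective L := by
  have h1 : IsUnit (L : R4 →ₗ[ℝ] R4) := (LinearMap.isUnit_iff_isUnit_det _).2 (isUnit_iff_ne_zero.2 h)
  exact (Module.End.isUnit_iff _).1 h1

theorem Sm.pull {a b f σ : V6} (h : Def3c a b f) (hs : Sm a b f σ) {L : R4 →L[ℝ] R4}
    (hL : L.det ≠ 0) :
    Sm (pull (matL L) a) (pull (matL L) b) (pull (matL L) f) (pull (matL L) σ) := by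
  intro ξ
  have hb := bij_of_det hL
  rw [ev_pull, tam_pull (d3_iff.1 h) (by rw [det_matL]; exact hL)
    (fun w => by obtain ⟨v, hv⟩ := hb.2 w; exact ⟨v, by rw [app_matL, hv]⟩)
    (fun v hv => hb.1 (by rw [← app_matL, hv, map_zero]))]
  exact hs _

/-- a form orthogonal to the pair is invariant -/
theorem ev_Nm_symm (a b z : V6) (v w : R4) :
    ev z v (app (Nm a b) w) + ev z (app (Nm a b) v) w =
      -(Q a b) * ev z v w + Q z b * ev a v w - Q z a * ev b v w := by
  simp only [ev_eq, app_eq, Nm, Fin.sum_univ_four, SCY.dn, ent_00, ent_01, ent_02, ent_03, ent_10,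
    ent_11, ent_12, ent_13, ent_20, ent_21, ent_22, ent_23, ent_30, ent_31, ent_32, ent_33,
    Matrix.cons_val_zero, Matrix.cons_val_one, Matrix.cons_val, Q]
  ring

theorem ev_tam_symm {a b z : V6} (f : V6) (ha : Q z a = 0) (hb : Q z b = 0) (v w : R4) :
    ev z v (app (tam f a b) w) = ev z w (app (tam f a b) v) := by
  have h := ev_Nm_symm a b z v w
  rw [ha, hb] at h
  unfold tam
  rw [app_smulM, app_smulM, ev_smul_right, ev_smul_right, app_Jm, app_Jm, ev_smul_right,
    ev_smul_right, ev_add_right, ev_add_right, ev_smul_right, ev_smul_right, ev_smul_right,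
    ev_smul_right, ev_antisymm z w (app (Nm a b) v), ev_antisymm z w v]
  congr 2
  linarith

theorem exists_orth {a b : V6} (h : PairPos a b) (f : V6) :
    ∃ c d : ℝ, Q (f - c • a - d • b) a = 0 ∧ Q (f - c • a - d • b) b = 0 := by
  have hg : gd a b ≠ 0 := h.det.ne'
  refine ⟨(B b b * B f a - B a b * B f b) / gd a b, (B a a * B f b - B a b * B f a) / gd a b,
    ?_, ?_⟩
  · rw [← B_eq_Q]
    simp only [B_sub_left, B_smul_left, B_comm b a]
    field_simp
    simp only [gd]; ring
  · rw [← B_eq_Q]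
    simp only [B_sub_left, B_smul_left]
    field_simp
    simp only [gd]; ring

theorem anti_comm (a b b' : V6) (v : R4) :
    app (Nm a b) (app (Nm a b') v) + app (Nm a b') (app (Nm a b) v) =
      -(Q a b) • app (Nm a b') v - Q a b' • app (Nm a b) v - (Q a a * Q b b' / 2) • v := by
  funext i
  fin_cases i <;>
  · simp only [app_eq, Nm, Fin.sum_univ_four, SCY.dn, ent_00, ent_01, ent_02, ent_03, ent_10,
      ent_11, ent_12, ent_13, ent_20, ent_21, ent_22, ent_23, ent_30, ent_31, ent_32, ent_33,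
      Matrix.cons_val_zero, Matrix.cons_val_one, Matrix.cons_val, Q, Pi.add_apply, Pi.sub_apply,
      Pi.smul_apply, smul_eq_mul, Fin.zero_eta, Fin.mk_one, Fin.reduceFinMk, Fin.isValue]
    ring

theorem Jm_anti (a b b' : V6) (v : R4) :
    app (Jm a b) (app (Jm a b') v) + app (Jm a b') (app (Jm a b) v) =
      -(2 * ((Real.sqrt (dsc a b))⁻¹ * (Real.sqrt (dsc a b'))⁻¹ * G a b b')) • v := by
  have h := anti_comm a b b' v
  have e : app (Nm a b) (app (Nm a b') v) = -(Q a b) • app (Nm a b') v - Q a b' • app (Nm a b) v -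
      (Q a a * Q b b' / 2) • v - app (Nm a b') (app (Nm a b) v) := by rw [← h]; abel
  simp only [app_Jm, app_smul, app_add]
  rw [e]
  have g : G a b b' = Q b b' * Q a a - Q a b * Q a b' := by
    simp only [G, B_eq_Q, Q_comm b a, Q_comm b' a]
  rw [g]
  module

theorem Jm_adj (a b : V6) (v w : R4) : ev a (app (Jm a b) v) w = ev a v (app (Jm a b) w) := by
  rw [ev_antisymm a v, ev_Jm, ev_Jm, ev_antisymm a w v, ev_antisymm b w v]; ring

/-- the family of linear maps joining the identity to an intertwiner of the complex structures of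
the pairs `a`, `b` and `a`, `b'` -/
theorem exists_inter {a b b' : V6} (h : PairPos a b) (h' : PairPos a b') (hG : 0 < G a b b') :
    ∃ m : R4 →L[ℝ] R4, ∀ t ∈ Icc (0 : ℝ) 1, ∃ μ k y : ℝ, 0 < μ ∧ 0 ≤ y ∧ (0 < t → 0 < y) ∧
      pull (matL ((1 - t) • ContinuousLinearMap.id ℝ R4 + t • m)) a = μ • a ∧
      pull (matL ((1 - t) • ContinuousLinearMap.id ℝ R4 + t • m)) b' =
        k • a + y • b + (1 - t) • b' := by
  have d0 : 0 < dsc a b := h.det
  have d1 : 0 < dsc a b' := h'.det
  have s0 : 0 < Real.sqrt (dsc a b) := Real.sqrt_pos.2 d0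
  have s1 : 0 < Real.sqrt (dsc a b') := Real.sqrt_pos.2 d1
  have hQ : 0 < Q a a := h.pos
  have c0 := isCx_Jm d0
  have c1 := isCx_Jm d1
  have han := Jm_anti a b b'
  have a0 := Jm_adj a b
  have a1 := Jm_adj a b'
  have e0 := ev_Jm a b
  have e1 := ev_Jm a b'
  set c := (Real.sqrt (dsc a b))⁻¹ * (Real.sqrt (dsc a b'))⁻¹ * G a b b' with hc
  have hc0 : 0 < c := by positivity
  generalize Real.sqrt (dsc a b) = σ0 at *
  generalize Real.sqrt (dsc a b') = σ1 at *
  generalize Jm a b = J0 at *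
  generalize Jm a b' = J1 at *
  refine ⟨(1 / 2 : ℝ) • (ContinuousLinearMap.id ℝ R4 - (clm J1).comp (clm J0)), fun t ht => ?_⟩
  have hm : ∀ v, app (matL ((1 - t) • ContinuousLinearMap.id ℝ R4 + t • (1 / 2 : ℝ) •
      (ContinuousLinearMap.id ℝ R4 - (clm J1).comp (clm J0)))) v =
      (1 - t / 2) • v + (-(t / 2)) • app J1 (app J0 v) := by
    intro v
    rw [app_matL]
    show (1 - t) • v + t • (1 / 2 : ℝ) • (v - app J1 (app J0 v)) = _
    module
  have k1 : ∀ w, app J0 (app J1 w) = -(2 * c) • w - app J1 (app J0 w) := fun w => by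
    rw [← han w]; abel
  have k2 : ∀ v w, ev a (app J1 (app J0 v)) w + ev a v (app J1 (app J0 w)) = -(2 * c) * ev a v w := by
    intro v w
    rw [a1, a0, k1, sub_eq_add_neg, ev_add_right, ev_neg_right, ev_smul_right]; ring
  have k3 : ∀ v w, ev a (app J1 (app J0 v)) (app J1 (app J0 w)) = ev a v w := by
    intro v w
    rw [a1, c1, ev_neg_right, a0, c0, ev_neg_right, neg_neg]
  have k4 : ∀ v w, ev a (app J1 v) (app J1 (app J0 w)) = -ev a (app J0 v) w := by
    intro v w
    rw [a1, c1, ev_neg_right, a0]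
  have k5 : ∀ v w, ev a (app J0 v) (app J1 (app J0 w)) =
      -(2 * c) * ev a (app J0 v) w + ev a (app J1 v) w := by
    intro v w
    rw [a0 v (app J1 _), k1, c0, app_neg, sub_neg_eq_add, ev_add_right, ev_smul_right, a0, a1]
  have hμ : ∀ v w, ev a ((1 - t / 2) • v + (-(t / 2)) • app J1 (app J0 v))
      ((1 - t / 2) • w + (-(t / 2)) • app J1 (app J0 w)) =
      ((1 - t) ^ 2 + (1 + c) * t * (1 - t / 2)) * ev a v w := by
    intro v w
    simp only [ev_add_left, ev_add_right, ev_smul_left, ev_smul_right, k3]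
    linear_combination (-(t / 2) * (1 - t / 2)) * k2 v w
  have hb : ∀ v w, ev b' v w = (Q a b' * ev a v w - σ1 * ev a (app J1 v) w) / Q a a := by
    intro v w
    rw [e1]; field_simp; ring
  refine ⟨(1 - t) ^ 2 + (1 + c) * t * (1 - t / 2),
    (Q a b' * ((1 - t) ^ 2 + (1 + c) * t * (1 - t / 2)) - (1 - t) * Q a b' -
      (t * (1 - t / 2) + c * t ^ 2 / 2) * (σ1 / σ0) * Q a b) / Q a a,
    (t * (1 - t / 2) + c * t ^ 2 / 2) * (σ1 / σ0), ?_, ?_, ?_, ?_, ?_⟩
  · have h1 : 0 < 1 - t / 2 := by linarith [ht.2]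
    rcases eq_or_lt_of_le ht.1 with h2 | h2
    · rw [← h2]; norm_num
    · positivity
  · have h1 : 0 < 1 - t / 2 := by linarith [ht.2]
    have := ht.1
    positivity
  · intro h2
    have h1 : 0 < 1 - t / 2 := by linarith [ht.2]
    positivity
  · apply ext_ev
    intro v w
    rw [ev_pull, hm, hm, hμ, ev_smul]
  · apply ext_ev
    intro v w
    rw [ev_pull, hm, hm, hb, hμ]
    have k6 : app J1 ((1 - t / 2) • v + (-(t / 2)) • app J1 (app J0 v)) =
        (1 - t / 2) • app J1 v + (t / 2) • app J0 v := by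
      rw [app_add, app_smul, app_smul, c1]; module
    rw [k6]
    simp only [ev_add_left, ev_add_right, ev_smul_left, ev_smul_right, k4, k5, ev_add, ev_smul]
    rw [e0, e1]
    field_simp
    ring

theorem d3_mix {a b b' f : V6}
    (h : ∀ s ∈ Icc (0 : ℝ) 1, Def3c a ((1 - s) • b + s • b') f) {x k y y' : ℝ} (hx : 0 < x)
    (hy : 0 ≤ y) (hy' : 0 ≤ y') (hs : 0 < y + y') : Def3c (x • a) (k • a + y • b + y' • b') f := by
  have h1 := d3_tri (h (y' / (y + y')) ⟨by positivity, by rw [div_le_one hs]; linarith⟩)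
    (x := x) (k := k) (y := y + y') (c := 0) (d := 0) (r := 1) hx.ne' hs.ne' one_ne_zero
  have e : (y + y') • ((1 - y' / (y + y')) • b + (y' / (y + y')) • b') = y • b + y' • b' := by
    rw [smul_add, smul_smul, smul_smul]
    congr 2 <;> field_simp
    ring
  rw [e, zero_smul, zero_smul, one_smul, zero_add, zero_add, ← add_assoc] at h1
  exact h1

/-- the orientation given by two Lagrangian planes on which the third form is positive -/
theorem not_neg {s : ℝ} {u v g : V6} (h : SCY.Def3 s g u v) (u0 : u 0 = 0) (u5 : u 5 = 0)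
    (v0 : v 0 = 0) (v5 : v 5 = 0) (g0 : 0 < g 0) (g5 : 0 < g 5) : 0 < s := by
  by_contra hs
  push Not at hs
  have hdet : (!![g 1, u 1, v 1; g 2, u 2, v 2; 0, 0, 0] : Matrix (Fin 3) (Fin 3) ℝ).det = 0 := by
    simp [Matrix.det_fin_three]
  obtain ⟨c, hc0, hc1⟩ := Matrix.exists_mulVec_eq_zero_iff.mpr hdet
  have e0 := congrFun hc1 0
  have e1 := congrFun hc1 1
  simp only [Matrix.mulVec, dotProduct, Fin.isValue, Matrix.of_apply, Matrix.cons_val',
    Matrix.cons_val_fin_one, Matrix.cons_val_zero, Fin.sum_univ_three, Matrix.cons_val_one,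
    Matrix.cons_val, Pi.zero_apply] at e0 e1
  have h1 := h (c 0) (c 1) (c 2) (by
    by_contra hcon
    push Not at hcon
    apply hc0
    funext i
    fin_cases i
    · exact hcon.1
    · exact hcon.2.1
    · exact hcon.2.2)
  have h2 : Q (c 0 • g + c 1 • u + c 2 • v) (c 0 • g + c 1 • u + c 2 • v) =
      2 * (c 0) ^ 2 * (g 0 * g 5) := by
    simp only [Q, Pi.add_apply, Pi.smul_apply, smul_eq_mul, u0, u5, v0, v5]
    linear_combination (-2 * (c 0 * g 4 + c 1 * u 4 + c 2 * v 4)) * e0 +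
      (2 * (c 0 * g 3 + c 1 * u 3 + c 2 * v 3)) * e1
  rw [h2] at h1
  have h3 : 0 ≤ 2 * (c 0) ^ 2 * (g 0 * g 5) := by positivity
  nlinarith [mul_nonpos_of_nonpos_of_nonneg hs h3]

theorem d3_of_scy {s : ℝ} (hs : 0 < s) {u v g : V6} : SCY.Def3 s g u v ↔ Def3c u v g := by
  rw [d3_iff]
  refine forall_congr' fun a => forall_congr' fun b => forall_congr' fun c =>
    forall_congr' fun _ => ?_
  rw [one_mul]
  exact mul_pos_iff_of_pos_left hs

theorem scy_of_pull {s : ℝ} {A B C : L2} {P : M4}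
    (h : SCY.Def3 (s * det4 P) (pull P A) (pull P B) (pull P C)) : SCY.Def3 s A B C := by
  intro a b c habc
  have h1 := h a b c habc
  rw [← pull_smul, ← pull_smul, ← pull_smul, ← pull_add, ← pull_add, Q_pull] at h1
  by_contra hcon
  push Not at hcon
  have h2 := mul_nonpos_of_nonneg_of_nonpos (mul_self_nonneg (det4 P)) hcon
  nlinarith

end Vale.Agent.P247T
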