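import Vale.Agent.P247.Bdl.B1

/-!
# P247T: the coframe theorem for even forms
-/

set_option linter.all false

open scoped BigOperators ContDiff Topology
open Set Filter

namespace Vale.Agent.P247T

open Vale.Agent.P247

theorem pd_neg {f : R4 → ℝ} (hf : SP f) (k : Fin 4) (x : R4) :
    pd k (fun x => f (-x)) x = -pd k f (-x) := by
  have h := ((hf.differentiable (-x)).hasFDerivAt.comp x (hasFDerivAt_id x).neg).fderiv
  unfold pd
  rw [show fderiv ℝ (fun x => f (-x)) x = _ from h]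
  simp

theorem pd_even {f : R4 → ℝ} (hf : SP f) (o : ∀ x, f (-x) = -f x) (k : Fin 4) (x : R4) :
    pd k f (-x) = pd k f x := by
  have h1 := pd_neg hf k x
  have h2 : (fun x => f (-x)) = fun x => (-1) * f x := funext fun x => by rw [o]; ring
  rw [h2, pd_const_mul _ hf] at h1
  linarith

theorem SP.comp_neg {f : R4 → ℝ} (hf : SP f) : SP fun x => f (-x) := by
  refine ⟨hf.1.comp contDiff_neg, fun n x => ?_⟩
  have h : (-fun i => x i + n i : R4) = -x + iv (-n) := by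
    funext i; simp [iv]; ring
  show f (-fun i => x i + n i) = _
  rw [h, hf.per]

theorem exists_odd_prim {w : Form 2} (hw : SPC w) (hV : ∀ x, comp (w x) 2 3 = 0)
    (he : ∀ x, w (-x) = w x) : ∃ A : Fin 4 → R4 → ℝ, (∀ i, SP (A i)) ∧ Basic (A 2) ∧ Basic (A 3) ∧
      (∀ i x, A i (-x) = -A i x) ∧
      ∀ x i j, comp (w x) i j = comp (mean w) i j + pd i (A j) x - pd j (A i) x := by
  obtain ⟨a, sa, hda, ba2, ba3⟩ := sub_mean_exact_V hw hV
  set A : Fin 4 → R4 → ℝ := fun i x => a x ![e i] with hA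
  have sA : ∀ i, SP (A i) := fun i => sa.eval _
  have hcomp : ∀ x i j, comp (w x) i j = comp (mean w) i j + pd i (A j) x - pd j (A i) x := by
    intro x i j
    have h1 : comp (w x - mean w) i j = comp (extDeriv a x) i j := by rw [hda]
    rw [comp_sub, comp_extDeriv sa] at h1
    linarith only [h1]
  have hb : ∀ f : R4 → ℝ, Basic f → Basic fun x => (1 / 2) * (f x - f (-x)) := by
    intro f hf x r
    have e2 : -(x + r • e 2) = -x + (-r) • e 2 := by module
    have e3 : -(x + r • e 3) = -x + (-r) • e 3 := by module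
    simp only [e2, e3, (hf _ _).1, (hf _ _).2, and_self]
  have hp : ∀ i j x, pd i (fun x => (1 / 2) * (A j x - A j (-x))) x =
      (1 / 2) * (pd i (A j) x + pd i (A j) (-x)) := by
    intro i j x
    rw [pd_const_mul _ ((sA j).sub (SP.comp_neg (sA j))), pd_sub (sA j) (SP.comp_neg (sA j)),
      pd_neg (sA j)]
    ring
  refine ⟨fun i x => (1 / 2) * (A i x - A i (-x)),
    fun i => ((sA i).sub (SP.comp_neg (sA i))).const_mul _, hb _ ba2, hb _ ba3,
    fun i x => by simp only [neg_neg]; ring, fun x i j => ?_⟩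
  have h1 := hcomp x i j
  have h2 := hcomp (-x) i j
  rw [he] at h2
  rw [hp, hp]
  linarith

theorem exists_coframe_odd {w : Form 2} (hw : SPC w) (hV : ∀ x, comp (w x) 2 3 = 0)
    (hpos : ∀ x, 0 < wedge (w x) (w x)) (he : ∀ x, w (-x) = w x) :
    ∃ V : Fin 4 → R4 → ℝ, (∀ i, SP (V i)) ∧ Basic (V 0) ∧ Basic (V 1) ∧
      (∀ i x, V i (-x) = -V i x) ∧
      ∀ x, w x = (mean w).compContinuousLinearMap (jac (mkU V) x) := by
  obtain ⟨A, sA, b2, b3, oA, hcomp⟩ := exists_odd_prim hw hV he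
  have hD := mixed_ne_zero hw hV hpos
  set c := mean w with hc
  have hE := E_ne_zero hV hpos sA b2 b3 hcomp
  have c23 : comp c 2 3 = 0 := by
    rw [hc, comp_mean hw.1]
    simp only [hV]
    exact mean_const 0
  clear_value c
  generalize hc01 : comp c 0 1 = c01 at *
  generalize hc02 : comp c 0 2 = c02 at *
  generalize hc03 : comp c 0 3 = c03 at *
  generalize hc12 : comp c 1 2 = c12 at *
  generalize hc13 : comp c 1 3 = c13 at *
  set D := c02 * c13 - c03 * c12 with hDdef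
  obtain ⟨F20, hF20⟩ : ∃ F, F = c13 / D := ⟨_, rfl⟩
  obtain ⟨F30, hF30⟩ : ∃ F, F = -c12 / D := ⟨_, rfl⟩
  obtain ⟨F21, hF21⟩ : ∃ F, F = -c03 / D := ⟨_, rfl⟩
  obtain ⟨F31, hF31⟩ : ∃ F, F = c02 / D := ⟨_, rfl⟩
  have f01 : c02 * F21 + c03 * F31 = 0 := by rw [hF21, hF31]; field_simp; ring
  have f11 : c12 * F21 + c13 * F31 = 1 := by
    rw [hF21, hF31]; field_simp; rw [hDdef]; ring
  have g22 : F20 * c02 + F21 * c12 = 1 := by
    rw [hF20, hF21]; field_simp; rw [hDdef]; ring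
  have g23 : F20 * c03 + F21 * c13 = 0 := by rw [hF20, hF21]; field_simp; ring
  have g32 : F30 * c02 + F31 * c12 = 0 := by rw [hF30, hF31]; field_simp; ring
  have g33 : F30 * c03 + F31 * c13 = 1 := by
    rw [hF30, hF31]; field_simp; rw [hDdef]; ring
  clear hF20 hF30 hF21 hF31
  -- the functions
  set φ0 : R4 → ℝ := fun x => F20 * A 2 x + F30 * A 3 x with hφ0
  set φ1 : R4 → ℝ := fun x => F21 * A 2 x + F31 * A 3 x with hφ1
  have sφ0 : SP φ0 := ((sA 2).const_mul F20).add ((sA 3).const_mul F30)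
  have sφ1 : SP φ1 := ((sA 2).const_mul F21).add ((sA 3).const_mul F31)
  have bφ0 : Basic φ0 := fun x r => by
    simp only [hφ0, (b2 x r).1, (b2 x r).2, (b3 x r).1, (b3 x r).2, and_self]
  have bφ1 : Basic φ1 := fun x r => by
    simp only [hφ1, (b2 x r).1, (b2 x r).2, (b3 x r).1, (b3 x r).2, and_self]
  have pφ0 : ∀ k x, pd k φ0 x = F20 * pd k (A 2) x + F30 * pd k (A 3) x := fun k x => by
    rw [hφ0, pd_add ((sA 2).const_mul F20) ((sA 3).const_mul F30), pd_const_mul F20 (sA 2),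
      pd_const_mul F30 (sA 3)]
  have pφ1 : ∀ k x, pd k φ1 x = F21 * pd k (A 2) x + F31 * pd k (A 3) x := fun k x => by
    rw [hφ1, pd_add ((sA 2).const_mul F21) ((sA 3).const_mul F31), pd_const_mul F21 (sA 2),
      pd_const_mul F31 (sA 3)]
  set T0 : R4 → ℝ := fun x => A 0 x + c01 * φ1 x with hT0
  have sT0 : SP T0 := (sA 0).add (sφ1.const_mul c01)
  have pT0 : ∀ k x, pd k T0 x = pd k (A 0) x + c01 * pd k φ1 x := fun k x => by
    rw [hT0, pd_add (sA 0) (sφ1.const_mul c01), pd_const_mul c01 sφ1]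
  set E02 : R4 → ℝ := fun x => c02 + pd 0 (A 2) x with hE02
  set E03 : R4 → ℝ := fun x => c03 + pd 0 (A 3) x with hE03
  set E12 : R4 → ℝ := fun x => c12 + pd 1 (A 2) x with hE12
  set E13 : R4 → ℝ := fun x => c13 + pd 1 (A 3) x with hE13
  have spd : ∀ i j, SP (pd i (A j)) := fun i j => (sA j).pd i
  have sE02 : SP E02 := (spd 0 2).const_add c02
  have sE03 : SP E03 := (spd 0 3).const_add c03
  have sE12 : SP E12 := (spd 1 2).const_add c12
  have sE13 : SP E13 := (spd 1 3).const_add c13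
  have pE02 : ∀ k x, pd k E02 x = pd k (pd 0 (A 2)) x := fun k x => pd_const_add _ _ _
  have pE03 : ∀ k x, pd k E03 x = pd k (pd 0 (A 3)) x := fun k x => pd_const_add _ _ _
  have pE12 : ∀ k x, pd k E12 x = pd k (pd 1 (A 2)) x := fun k x => pd_const_add _ _ _
  have pE13 : ∀ k x, pd k E13 x = pd k (pd 1 (A 3)) x := fun k x => pd_const_add _ _ _
  set dE : R4 → ℝ := fun x => E02 x * E13 x - E03 x * E12 x with hdE
  have sdE : SP dE := (sE02.mul sE13).sub (sE03.mul sE12)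
  have ndE : ∀ x, dE x ≠ 0 := hE
  set B2 : R4 → ℝ := fun x => (E13 x * T0 x - E03 x * A 1 x) / dE x with hB2
  set B3 : R4 → ℝ := fun x => (E02 x * A 1 x - E12 x * T0 x) / dE x with hB3
  have sB2 : SP B2 := ((sE13.mul sT0).sub (sE03.mul (sA 1))).div sdE ndE
  have sB3 : SP B3 := ((sE02.mul (sA 1)).sub (sE12.mul sT0)).div sdE ndE
  have rel0 : (fun x => E02 x * B2 x + E03 x * B3 x) = T0 := by
    funext x
    have h := ndE x
    simp only [hB2, hB3]
    field_simp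
    simp only [hdE]
    ring
  have rel1 : (fun x => E12 x * B2 x + E13 x * B3 x) = A 1 := by
    funext x
    have h := ndE x
    simp only [hB2, hB3]
    field_simp
    simp only [hdE]
    ring
  have r0 : ∀ k x, pd k (pd 0 (A 2)) x * B2 x + E02 x * pd k B2 x
      + (pd k (pd 0 (A 3)) x * B3 x + E03 x * pd k B3 x)
      = pd k (A 0) x + c01 * pd k φ1 x := fun k x => by
    rw [← pT0, ← rel0, pd_add (sE02.mul sB2) (sE03.mul sB3), pd_mul sE02 sB2, pd_mul sE03 sB3,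
      pE02, pE03]
  have r1 : ∀ k x, pd k (pd 1 (A 2)) x * B2 x + E12 x * pd k B2 x
      + (pd k (pd 1 (A 3)) x * B3 x + E13 x * pd k B3 x) = pd k (A 1) x := fun k x => by
    rw [← rel1, pd_add (sE12.mul sB2) (sE13.mul sB3), pd_mul sE12 sB2, pd_mul sE13 sB3,
      pE12, pE13]
  set V2 : R4 → ℝ := fun x => c01 * F21 * φ0 x - B2 x with hV2
  set V3 : R4 → ℝ := fun x => c01 * F31 * φ0 x - B3 x with hV3
  have sV2 : SP V2 := (sφ0.const_mul _).sub sB2
  have sV3 : SP V3 := (sφ0.const_mul _).sub sB3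
  have pV2 : ∀ k x, pd k V2 x = c01 * F21 * pd k φ0 x - pd k B2 x := fun k x => by
    rw [hV2, pd_sub (sφ0.const_mul _) sB2, pd_const_mul _ sφ0]
  have pV3 : ∀ k x, pd k V3 x = c01 * F31 * pd k φ0 x - pd k B3 x := fun k x => by
    rw [hV3, pd_sub (sφ0.const_mul _) sB3, pd_const_mul _ sφ0]
  have sV : ∀ i, SP ((![φ0, φ1, V2, V3] : Fin 4 → R4 → ℝ) i) := by
    intro i
    fin_cases i
    · exact sφ0
    · exact sφ1
    · exact sV2
    · exact sV3
  have ev : ∀ i j x, pd i (A j) (-x) = pd i (A j) x := fun i j => pd_even (sA j) (oA j) i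
  have oφ0 : ∀ x, φ0 (-x) = -φ0 x := fun x => by simp only [hφ0, oA]; ring
  have oφ1 : ∀ x, φ1 (-x) = -φ1 x := fun x => by simp only [hφ1, oA]; ring
  have oT0 : ∀ x, T0 (-x) = -T0 x := fun x => by simp only [hT0, oA, oφ1]; ring
  have edE : ∀ x, dE (-x) = dE x := fun x => by simp only [hdE, hE02, hE03, hE12, hE13, ev]
  have oB2 : ∀ x, B2 (-x) = -B2 x := fun x => by
    simp only [hB2, edE, oT0, oA, hE03, hE13, ev]; ring
  have oB3 : ∀ x, B3 (-x) = -B3 x := fun x => by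
    simp only [hB3, edE, oT0, oA, hE02, hE12, ev]; ring
  have oV : ∀ i x, (![φ0, φ1, V2, V3] : Fin 4 → R4 → ℝ) i (-x) =
      -(![φ0, φ1, V2, V3] : Fin 4 → R4 → ℝ) i x := by
    intro i x
    fin_cases i
    · exact oφ0 x
    · exact oφ1 x
    · show V2 (-x) = -V2 x
      simp only [hV2, oφ0, oB2]; ring
    · show V3 (-x) = -V3 x
      simp only [hV3, oφ0, oB3]; ring
  refine ⟨![φ0, φ1, V2, V3], sV, bφ0, bφ1, oV, fun x => ?_⟩
  have z02 : pd 2 φ0 x = 0 := bφ0.pd_two sφ0 x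
  have z03 : pd 3 φ0 x = 0 := bφ0.pd_three sφ0 x
  have z12 : pd 2 φ1 x = 0 := bφ1.pd_two sφ1 x
  have z13 : pd 3 φ1 x = 0 := bφ1.pd_three sφ1 x
  have y22 : pd 2 (A 2) x = 0 := b2.pd_two (sA 2) x
  have y23 : pd 3 (A 2) x = 0 := b2.pd_three (sA 2) x
  have y32 : pd 2 (A 3) x = 0 := b3.pd_two (sA 3) x
  have y33 : pd 3 (A 3) x = 0 := b3.pd_three (sA 3) x
  have q : ∀ i j, (jac (mkU ![φ0, φ1, V2, V3]) x (e j)) i
      = (if i = j then 1 else 0) + pd j ((![φ0, φ1, V2, V3] : Fin 4 → R4 → ℝ) i) x :=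
    fun i j => jac_mkU sV x i j
  have zz : ∀ k : Fin 4, (k = 2 ∨ k = 3) → ∀ i j, (j = 2 ∨ j = 3) →
      pd k (pd i (A j)) x = 0 := by
    intro k hk i j hj
    have hb : Basic (A j) := by rcases hj with rfl | rfl; exacts [b2, b3]
    rcases hk with rfl | rfl
    · exact (hb.pd i).pd_two (spd i j) x
    · exact (hb.pd i).pd_three (spd i j) x
  -- the entries of the Jacobian matrix
  set J := jac (mkU ![φ0, φ1, V2, V3]) x with hJ
  have P00 : J (e 0) 0 = 1 + (F20 * pd 0 (A 2) x + F30 * pd 0 (A 3) x) := by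
    rw [q, ← pφ0]; rfl
  have P10 : J (e 0) 1 = F21 * pd 0 (A 2) x + F31 * pd 0 (A 3) x := by
    rw [q, ← pφ1, if_neg (by decide), zero_add]; rfl
  have P20 : J (e 0) 2 = c01 * F21 * (J (e 0) 0 - 1) - pd 0 B2 x := by
    rw [P00, q, if_neg (by decide), zero_add]
    change pd 0 V2 x = _
    rw [pV2, pφ0]; ring
  have P30 : J (e 0) 3 = c01 * F31 * (J (e 0) 0 - 1) - pd 0 B3 x := by
    rw [P00, q, if_neg (by decide), zero_add]
    change pd 0 V3 x = _
    rw [pV3, pφ0]; ring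
  have P01 : J (e 1) 0 = F20 * pd 1 (A 2) x + F30 * pd 1 (A 3) x := by
    rw [q, ← pφ0, if_neg (by decide), zero_add]; rfl
  have P11 : J (e 1) 1 = 1 + (F21 * pd 1 (A 2) x + F31 * pd 1 (A 3) x) := by
    rw [q, ← pφ1]; rfl
  have P21 : J (e 1) 2 = c01 * F21 * J (e 1) 0 - pd 1 B2 x := by
    rw [P01, q, if_neg (by decide), zero_add]
    change pd 1 V2 x = _
    rw [pV2, pφ0]
  have P31 : J (e 1) 3 = c01 * F31 * J (e 1) 0 - pd 1 B3 x := by
    rw [P01, q, if_neg (by decide), zero_add]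
    change pd 1 V3 x = _
    rw [pV3, pφ0]
  have P02 : J (e 2) 0 = 0 := by
    rw [q, if_neg (by decide), zero_add]; exact z02
  have P12 : J (e 2) 1 = 0 := by
    rw [q, if_neg (by decide), zero_add]; exact z12
  have P22 : J (e 2) 2 = 1 - pd 2 B2 x := by
    rw [q, if_pos rfl]
    change 1 + pd 2 V2 x = _
    rw [pV2, z02]; ring
  have P32 : J (e 2) 3 = - pd 2 B3 x := by
    rw [q, if_neg (by decide), zero_add]
    change pd 2 V3 x = _
    rw [pV3, z02]; ring
  have P03 : J (e 3) 0 = 0 := by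
    rw [q, if_neg (by decide), zero_add]; exact z03
  have P13 : J (e 3) 1 = 0 := by
    rw [q, if_neg (by decide), zero_add]; exact z13
  have P23 : J (e 3) 2 = - pd 3 B2 x := by
    rw [q, if_neg (by decide), zero_add]
    change pd 3 V2 x = _
    rw [pV2, z03]; ring
  have P33 : J (e 3) 3 = 1 - pd 3 B3 x := by
    rw [q, if_pos rfl]
    change 1 + pd 3 V3 x = _
    rw [pV3, z03]; ring
  have h02 : c02 * J (e 0) 0 + c12 * J (e 0) 1 = c02 + pd 0 (A 2) x := by
    rw [P00, P10]; linear_combination pd 0 (A 2) x * g22 + pd 0 (A 3) x * g32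
  have h03 : c03 * J (e 0) 0 + c13 * J (e 0) 1 = c03 + pd 0 (A 3) x := by
    rw [P00, P10]; linear_combination pd 0 (A 2) x * g23 + pd 0 (A 3) x * g33
  have h12 : c02 * J (e 1) 0 + c12 * J (e 1) 1 = c12 + pd 1 (A 2) x := by
    rw [P01, P11]; linear_combination pd 1 (A 2) x * g22 + pd 1 (A 3) x * g32
  have h13 : c03 * J (e 1) 0 + c13 * J (e 1) 1 = c13 + pd 1 (A 3) x := by
    rw [P01, P11]; linear_combination pd 1 (A 2) x * g23 + pd 1 (A 3) x * g33
  have s0 := r0 2 x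
  have s1 := r0 3 x
  have s2 := r1 2 x
  have s3 := r1 3 x
  have s4 := r0 1 x
  have s5 := r1 0 x
  rw [zz 2 (Or.inl rfl) 0 2 (Or.inl rfl), zz 2 (Or.inl rfl) 0 3 (Or.inr rfl), z12] at s0
  rw [zz 3 (Or.inr rfl) 0 2 (Or.inl rfl), zz 3 (Or.inr rfl) 0 3 (Or.inr rfl), z13] at s1
  rw [zz 2 (Or.inl rfl) 1 2 (Or.inl rfl), zz 2 (Or.inl rfl) 1 3 (Or.inr rfl)] at s2
  rw [zz 3 (Or.inr rfl) 1 2 (Or.inl rfl), zz 3 (Or.inr rfl) 1 3 (Or.inr rfl)] at s3
  rw [pφ1] at s4
  have key := coframe_algebra c01 c02 c03 c12 c13 F20 F30 F21 F31 f01 f11 g22 g23 g32 g33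
    (pd 0 (A 2) x) (pd 1 (A 2) x) (pd 0 (A 3) x) (pd 1 (A 3) x) (pd 1 (A 0) x) (pd 0 (A 1) x)
    (B2 x) (B3 x) (pd 0 B2 x) (pd 1 B2 x) (pd 0 B3 x) (pd 1 B3 x) (pd 1 (pd 0 (A 2)) x)
    (pd 1 (pd 0 (A 3)) x) (pd 0 (pd 1 (A 2)) x) (pd 0 (pd 1 (A 3)) x)
    (pd_comm (sA 2) 0 1 x) (pd_comm (sA 3) 0 1 x) s4 s5 P00 P10 P01 P11 P20 P21 P30 P31
  have c10 : comp c 1 0 = -c01 := by rw [comp_swap, hc01]
  have c20 : comp c 2 0 = -c02 := by rw [comp_swap, hc02]
  have c30 : comp c 3 0 = -c03 := by rw [comp_swap, hc03]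
  have c21 : comp c 2 1 = -c12 := by rw [comp_swap, hc12]
  have c31 : comp c 3 1 = -c13 := by rw [comp_swap, hc13]
  have c32 : comp c 3 2 = 0 := by rw [comp_swap, c23, neg_zero]
  have expand : ∀ i j, comp (c.compContinuousLinearMap J) i j =
      c01 * (J (e i) 0 * J (e j) 1 - J (e i) 1 * J (e j) 0)
      + c02 * (J (e i) 0 * J (e j) 2 - J (e i) 2 * J (e j) 0)
      + c03 * (J (e i) 0 * J (e j) 3 - J (e i) 3 * J (e j) 0)
      + c12 * (J (e i) 1 * J (e j) 2 - J (e i) 2 * J (e j) 1)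
      + c13 * (J (e i) 1 * J (e j) 3 - J (e i) 3 * J (e j) 1) := by
    intro i j
    rw [pullback_comp]
    simp only [Fin.sum_univ_four, comp_self, hc01, hc02, hc03, hc12, hc13, c23, c10, c20, c30,
      c21, c31, c32]
    ring
  have t01 : comp (w x) 0 1 = comp (c.compContinuousLinearMap J) 0 1 := by
    rw [hcomp, expand, ← sub_eq_zero, hc01]
    linear_combination key
  have t02 : comp (w x) 0 2 = comp (c.compContinuousLinearMap J) 0 2 := by
    rw [hcomp, expand, P02, P12, P22, P32, hc02]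
    simp only [hE02, hE03] at s0
    linear_combination (1 - pd 2 B2 x) * (-h02) + pd 2 B3 x * h03 + s0
  have t03 : comp (w x) 0 3 = comp (c.compContinuousLinearMap J) 0 3 := by
    rw [hcomp, expand, P03, P13, P23, P33, hc03]
    simp only [hE02, hE03] at s1
    linear_combination (1 - pd 3 B3 x) * (-h03) + pd 3 B2 x * h02 + s1
  have t12 : comp (w x) 1 2 = comp (c.compContinuousLinearMap J) 1 2 := by
    rw [hcomp, expand, P02, P12, P22, P32, hc12]
    simp only [hE12, hE13] at s2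
    linear_combination (1 - pd 2 B2 x) * (-h12) + pd 2 B3 x * h13 + s2
  have t13 : comp (w x) 1 3 = comp (c.compContinuousLinearMap J) 1 3 := by
    rw [hcomp, expand, P03, P13, P23, P33, hc13]
    simp only [hE12, hE13] at s3
    linear_combination (1 - pd 3 B3 x) * (-h13) + pd 3 B2 x * h12 + s3
  have t23 : comp (w x) 2 3 = comp (c.compContinuousLinearMap J) 2 3 := by
    rw [expand, P02, P12, P03, P13, hV]
    ring
  apply coord_inj
  rw [coord_eq_comp, coord_eq_comp, t01, t02, t03, t12, t13, t23]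

end Vale.Agent.P247T
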