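import Vale.Agent.P247T.Alg

/-!
# P247T: a logarithmic cutoff and the local semi-taming form
-/

set_option linter.all false

open scoped BigOperators ContDiff Topology
open Set Filter Metric

namespace Vale.Agent.P247T

open Vale.Agent.P247 Vale.Agent.P204.T4 Vale.Agent.P204.Mfd
open Vale.Agent.P247.SCY (tam tam_pos isCx_tam pull_tam_B pull_tam_C ev_anti)
open Real (smoothTransition)

theorem st_diff (t : ℝ) : HasDerivAt smoothTransition (deriv smoothTransition t) t :=
  ((smoothTransition.contDiff (n := 1)).differentiable (by simp) t).hasDerivAt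

theorem st_bound : ∃ C : ℝ, 0 < C ∧ ∀ t, |deriv smoothTransition t| ≤ C := by
  have hc : Continuous (deriv smoothTransition) :=
    (smoothTransition.contDiff (n := 1)).continuous_deriv (by simp)
  obtain ⟨C, hC⟩ := (isCompact_Icc (a := (0 : ℝ)) (b := 1)).exists_bound_of_continuousOn
    hc.continuousOn
  refine ⟨|C| + 1, by positivity, fun t => ?_⟩
  have h0 : (0 : ℝ) ≤ |C| + 1 := by positivity
  by_cases h1 : t < 0
  · have : smoothTransition =ᶠ[𝓝 t] fun _ => 0 := by
      filter_upwards [Iio_mem_nhds h1] with s hs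
      exact smoothTransition.zero_of_nonpos (le_of_lt hs)
    rw [this.deriv_eq, deriv_const, abs_zero]; exact h0
  by_cases h2 : 1 < t
  · have : smoothTransition =ᶠ[𝓝 t] fun _ => 1 := by
      filter_upwards [Ioi_mem_nhds h2] with s hs
      exact smoothTransition.one_of_one_le (le_of_lt hs)
    rw [this.deriv_eq, deriv_const, abs_zero]; exact h0
  have := hC t ⟨not_lt.1 h1, not_lt.1 h2⟩
  rw [Real.norm_eq_abs] at this
  linarith [le_abs_self C]

/-- the square of the Euclidean norm -/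
def sq4 (y : R4) : ℝ := y 0 ^ 2 + y 1 ^ 2 + y 2 ^ 2 + y 3 ^ 2

theorem sq4_nonneg (y : R4) : 0 ≤ sq4 y := by unfold sq4; positivity

theorem norm_sq_le (y : R4) : ‖y‖ ^ 2 ≤ sq4 y := by
  have h : ‖y‖ ≤ Real.sqrt (sq4 y) := by
    rw [pi_norm_le_iff_of_nonneg (Real.sqrt_nonneg _)]
    intro i
    rw [Real.norm_eq_abs]
    apply Real.abs_le_sqrt
    unfold sq4
    fin_cases i <;> simp <;> nlinarith [sq_nonneg (y 0), sq_nonneg (y 1), sq_nonneg (y 2),
      sq_nonneg (y 3)]
  calc ‖y‖ ^ 2 ≤ Real.sqrt (sq4 y) ^ 2 := by gcongr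
    _ = sq4 y := Real.sq_sqrt (sq4_nonneg y)

theorem sq4_diff (y : R4) : ∃ L : R4 →L[ℝ] ℝ, HasFDerivAt sq4 L y ∧ ‖L‖ ≤ 8 * ‖y‖ := by
  have h : ∀ i : Fin 4, HasFDerivAt (fun y : R4 => y i ^ 2)
      ((2 * y i) • (ContinuousLinearMap.proj i : R4 →L[ℝ] ℝ)) y := by
    intro i
    have h1 : HasFDerivAt (fun y : R4 => y i) (ContinuousLinearMap.proj i : R4 →L[ℝ] ℝ) y :=
      (ContinuousLinearMap.proj i : R4 →L[ℝ] ℝ).hasFDerivAt
    simpa using h1.pow 2
  refine ⟨_, (((h 0).add (h 1)).add (h 2)).add (h 3), ?_⟩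
  refine ContinuousLinearMap.opNorm_le_bound _ (by positivity) fun v => ?_
  have k : ∀ i : Fin 4, |2 * y i * v i| ≤ 2 * ‖y‖ * ‖v‖ := by
    intro i
    rw [abs_mul, abs_mul, abs_two]
    have h1 : |y i| ≤ ‖y‖ := norm_le_pi_norm y i
    have h2 : |v i| ≤ ‖v‖ := norm_le_pi_norm v i
    gcongr
  show |2 * y 0 * v 0 + 2 * y 1 * v 1 + 2 * y 2 * v 2 + 2 * y 3 * v 3| ≤ _
  have k0 := abs_le.1 (k 0)
  have k1 := abs_le.1 (k 1)
  have k2 := abs_le.1 (k 2)
  have k3 := abs_le.1 (k 3)
  rw [abs_le]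
  constructor <;> linarith [k0.1, k0.2, k1.1, k1.2, k2.1, k2.2, k3.1, k3.2]

/-- a slowly varying cutoff -/
structure Cut (χ : R4 → ℝ) (ρ η ρ' : ℝ) : Prop where
  sm : ContDiff ℝ ∞ χ
  mem : ∀ y, χ y ∈ Icc (0 : ℝ) 1
  even : ∀ y, χ (-y) = χ y
  zero : ∀ y, ρ ≤ ‖y‖ → χ y = 0
  pos : 0 < ρ'
  le : ρ' ≤ ρ
  one : ∀ y, ‖y‖ < ρ' → χ y = 1
  slow : ∀ y, ‖fderiv ℝ χ y‖ * ‖y‖ ≤ η

theorem exists_cut {ρ η : ℝ} (hρ : 0 < ρ) (hη : 0 < η) : ∃ χ ρ', Cut χ ρ η ρ' := by
  obtain ⟨C, hC0, hC⟩ := st_bound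
  set κ := η / (8 * C) with hκ
  have hκ0 : 0 < κ := by positivity
  set δ := ρ ^ 2 * Real.exp (-κ⁻¹) / 2 with hδ
  have hδ0 : 0 < δ := by positivity
  have hpos : ∀ y, 0 < sq4 y + δ := fun y => by have := sq4_nonneg y; positivity
  have hq : ContDiff ℝ ∞ sq4 := by unfold sq4; fun_prop
  have hev : ∀ᶠ y in 𝓝 (0 : R4), sq4 y < δ :=
    hq.continuous.continuousAt.eventually (gt_mem_nhds (by simpa [sq4] using hδ0))
  obtain ⟨r, hr0, hr⟩ := Metric.eventually_nhds_iff.1 hev
  refine ⟨fun y => smoothTransition (-κ * (Real.log (sq4 y + δ) - Real.log (ρ ^ 2))), min r ρ,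
    ?_, fun y => ⟨smoothTransition.nonneg _, smoothTransition.le_one _⟩, fun y => ?_,
    fun y hy => ?_, lt_min hr0 hρ, min_le_right _ _, fun y hy => ?_, fun y => ?_⟩
  · exact smoothTransition.contDiff.comp (contDiff_const.mul
      (((hq.add contDiff_const).log fun y => (hpos y).ne').sub contDiff_const))
  · simp [sq4]
  · apply smoothTransition.zero_of_nonpos
    have h1 : ρ ^ 2 ≤ sq4 y + δ := by
      have h2 : ρ ^ 2 ≤ ‖y‖ ^ 2 := by gcongr
      linarith [norm_sq_le y]
    have h2 := Real.log_le_log (by positivity) h1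
    nlinarith
  · apply smoothTransition.one_of_one_le
    have h1 : sq4 y < δ := hr (by simpa using hy.trans_le (min_le_left _ _))
    have h2 : sq4 y + δ ≤ ρ ^ 2 * Real.exp (-κ⁻¹) := by rw [hδ] at h1 ⊢; linarith
    have h3 := Real.log_le_log (hpos y) h2
    rw [Real.log_mul (by positivity) (by positivity), Real.log_exp] at h3
    have h4 : κ * κ⁻¹ = 1 := mul_inv_cancel₀ hκ0.ne'
    nlinarith
  · obtain ⟨L, hL, hLn⟩ := sq4_diff y
    have h1 := (((hL.add_const δ).log (hpos y).ne').sub_const (Real.log (ρ ^ 2))).const_mul (-κ)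
    have h2 := (st_diff _).comp_hasFDerivAt y h1
    have h3 : fderiv ℝ (fun y => smoothTransition
        (-κ * (Real.log (sq4 y + δ) - Real.log (ρ ^ 2)))) y = _ := h2.fderiv
    rw [h3, norm_smul, norm_smul, norm_smul, Real.norm_eq_abs, norm_neg, Real.norm_of_nonneg hκ0.le,
      Real.norm_of_nonneg (inv_nonneg.2 (hpos y).le)]
    have h4 : (sq4 y + δ)⁻¹ * ‖y‖ ^ 2 ≤ 1 := by
      rw [inv_mul_le_iff₀ (hpos y)]
      linarith [norm_sq_le y]
    have h5 : 0 ≤ (sq4 y + δ)⁻¹ := inv_nonneg.2 (hpos y).le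
    calc _ ≤ C * (κ * ((sq4 y + δ)⁻¹ * (8 * ‖y‖))) * ‖y‖ := by gcongr; exact hC _
      _ = 8 * C * κ * ((sq4 y + δ)⁻¹ * ‖y‖ ^ 2) := by ring
      _ ≤ 8 * C * κ * 1 := by gcongr
      _ = η := by rw [hκ]; field_simp

/-- the bilinear map of a two-form -/
noncomputable def bl (z : Form2) : R4 →L[ℝ] R4 →L[ℝ] ℝ :=
  LinearMap.toContinuousLinearMap
    ((LinearMap.toContinuousLinearMap : (R4 →ₗ[ℝ] ℝ) ≃ₗ[ℝ] (R4 →L[ℝ] ℝ)).toLinearMap ∘ₗ bil z)

theorem bl_apply (z : Form2) (v w : R4) : bl z v w = z ![v, w] := rfl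

/-- the correction which turns the constant form `f` into a semi-taming form that lies in the span
of the pair near the origin -/
structure Semi (a b f : Form2) (ρ : ℝ) (E : Form 2) (c d ρ' : ℝ) : Prop where
  sm : ContDiff ℝ ∞ E
  closed : ∀ y, extDeriv E y = 0
  even : ∀ y, E (-y) = E y
  zero : ∀ y, ρ ≤ ‖y‖ → E y = 0
  pos : 0 < ρ'
  span : ∀ y, ‖y‖ < ρ' → f + E y = c • a + d • b
  semi : ∀ y, Sm (coord a) (coord b) (coord f) (coord (f + E y))

theorem exists_semi {a b f : Form2} (h : Def3c (coord a) (coord b) (coord f)) {ρ : ℝ}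
    (hρ : 0 < ρ) : ∃ E c d ρ', Semi a b f ρ E c d ρ' := by
  obtain ⟨c, d, hc, hd⟩ := exists_orth h.pairPos (coord f)
  have h3 := d3_iff.1 h
  have hcx := isCx_tam h3
  have an0 := ev_anti hcx (pull_tam_B h3)
  have an1 := ev_anti hcx (pull_tam_C h3)
  have hpos := fun v (hv : v ≠ 0) => tam_pos h3 hv
  set z : Form2 := f - c • a - d • b with hz
  have hzc : coord z = coord f - c • coord a - d • coord b := by
    rw [hz, coord_sub, coord_sub, coord_smul, coord_smul]
  have hsym := ev_tam_symm (coord f) hc hd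
  rw [← hzc] at hsym
  set T := tam (coord f) (coord a) (coord b) with hT
  have hzf : ∀ v, ev (coord z) v (app T v) = ev (coord f) v (app T v) := fun v => by
    rw [hzc, ev_sub, ev_sub, ev_smul, ev_smul, an0, an1]; ring
  set q : R4 → ℝ := fun y => bl z y (clm T y) with hq
  have hqe : ∀ y, q y = ev (coord z) y (app T y) := fun y => (ev_coord z _ _).symm
  have hqs : ContDiff ℝ ∞ q := (bl z).contDiff.clm_apply (clm T).contDiff
  have hqd : ∀ y, HasFDerivAt q ((bl z y).comp (clm T) + (bl z).flip (clm T y)) y := fun y =>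
    (bl z).hasFDerivAt.clm_apply (clm T).hasFDerivAt
  obtain ⟨y0, hy0, hmin⟩ := (isCompact_sphere (0 : R4) ρ).exists_isMinOn
    (NormedSpace.sphere_nonempty.2 hρ.le) hqs.continuous.continuousOn
  have hy0n : ‖y0‖ = ρ := by simpa using hy0
  set m := q y0 with hm
  have hm0 : 0 < m := by
    rw [hm, hqe, hzf]
    exact hpos _ (by intro h0; rw [h0, norm_zero] at hy0n; linarith)
  have hfar : ∀ y, ρ ≤ ‖y‖ → m ≤ q y := by
    intro y hy
    have hy' : 0 < ‖y‖ := hρ.trans_le hy
    have h1 : m ≤ q ((ρ / ‖y‖) • y) := hmin (by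
      simp only [mem_sphere_iff_norm, sub_zero, norm_smul, Real.norm_eq_abs]
      rw [abs_of_pos (by positivity)]; field_simp)
    rw [hqe, app_smul, ev_smul_left, ev_smul_right, ← hqe] at h1
    have h2 : ρ / ‖y‖ ≤ 1 := by rw [div_le_one hy']; exact hy
    have h4 : 0 < ρ / ‖y‖ := by positivity
    have h5 : 0 < q y := by
      by_contra hcon
      push Not at hcon
      have := mul_nonpos_of_nonneg_of_nonpos h4.le (mul_nonpos_of_nonneg_of_nonpos h4.le hcon)
      linarith
    have h6 : ρ / ‖y‖ * (ρ / ‖y‖ * q y) ≤ 1 * (1 * q y) := by gcongr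
    linarith
  set l : ℝ → ℝ := fun t => smoothTransition (4 / m * t - 1) with hl
  have hls : ContDiff ℝ ∞ l := smoothTransition.contDiff.comp (by fun_prop)
  have hld : ∀ t, HasDerivAt l (deriv l t) t := fun t =>
    (hls.differentiable (by simp) t).hasDerivAt
  have hlm : Monotone l := fun s t hst => smoothTransition.monotone (by
    have : 0 < 4 / m := by positivity
    nlinarith)
  set η : R4 → Form1 := fun y => (l (q y) - 1) • ((1 / 2 : ℝ) • z.curryLeft) y with hη
  have hηs : ContDiff ℝ ∞ η :=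
    ((hls.comp hqs).sub contDiff_const).smul ((1 / 2 : ℝ) • z.curryLeft).contDiff
  have hE : ∀ y v w, extDeriv η y ![v, w] = (l (q y) - 1) * ev (coord z) v w + deriv l (q y) *
      (ev (coord z) y (app T v) * ev (coord z) y w - ev (coord z) y (app T w) * ev (coord z) y v) := by
    intro y v w
    have h1 := ((((hld (q y)).comp_hasFDerivAt y (hqd y)).sub_const 1).smul
      ((1 / 2 : ℝ) • z.curryLeft).hasFDerivAt).fderiv
    have h2 : ∀ v w, fderiv ℝ η y v ![w] = (l (q y) - 1) * ((1 / 2) * z ![v, w]) +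
        deriv l (q y) * (z ![y, app T v] + z ![v, app T y]) * ((1 / 2) * z ![y, w]) := by
      intro v w
      rw [show fderiv ℝ η y = _ from h1]
      rfl
    rw [extDeriv_one_apply, h2, h2]
    simp only [← ev_coord]
    rw [hsym v y, hsym w y, ev_antisymm _ w v]
    ring
  have hev : ∀ᶠ y in 𝓝 (0 : R4), q y < m / 4 :=
    hqs.continuous.continuousAt.eventually (gt_mem_nhds (by
      rw [hqe]; simp [ev_eq]; positivity))
  obtain ⟨r, hr0, hr⟩ := Metric.eventually_nhds_iff.1 hev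
  have hm4 : 4 / m * (m / 4) = 1 := by field_simp
  have hm5 : 0 < 4 / m := by positivity
  refine ⟨extDeriv η, c, d, r, ?_, fun y => extDeriv_extDeriv_apply hηs.contDiffAt minS,
    fun y => ?_, fun y hy => ?_, hr0, fun y hy => ?_, fun y ξ => ?_⟩
  · have e : extDeriv η = fun y => ContinuousAlternatingMap.alternatizeUncurryFinCLM ℝ R4 ℝ
        (fderiv ℝ η y) := rfl
    rw [e]
    exact (ContinuousLinearMap.contDiff _).comp (hηs.fderiv_right (m := ∞) (by simp))
  · apply alt_ext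
    intro v w
    have : q (-y) = q y := by rw [hqe, hqe, app_neg, ev_neg_left, ev_neg_right, neg_neg]
    rw [hE, hE, this]
    simp only [ev_neg_left]
    ring
  · apply alt_ext
    intro v w
    have h1 : l =ᶠ[𝓝 (q y)] fun _ => 1 := by
      filter_upwards [Ioi_mem_nhds (show m / 2 < q y by linarith [hfar y hy])] with t ht
      apply smoothTransition.one_of_one_le
      have : m / 2 < t := ht
      nlinarith
    rw [hE, h1.deriv_eq, h1.eq_of_nhds, deriv_const]
    simp
  · have h0 : q y < m / 4 := hr (by simpa using hy)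
    have h1 : l =ᶠ[𝓝 (q y)] fun _ => 0 := by
      filter_upwards [Iio_mem_nhds h0] with t ht
      apply smoothTransition.zero_of_nonpos
      have : t < m / 4 := ht
      nlinarith
    have h2 : extDeriv η y = -z := by
      apply alt_ext
      intro v w
      rw [hE, h1.deriv_eq, h1.eq_of_nhds, deriv_const, ev_coord]
      simp
    rw [h2, hz]; abel
  · rw [coord_add, ev_add, ev_coord (extDeriv η y), hE, hcx, ev_neg_right, ← hzf]
    have h1 : 0 ≤ l (q y) := smoothTransition.nonneg _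
    have h2 : 0 ≤ deriv l (q y) := hlm.deriv_nonneg
    have h4 : 0 ≤ ev (coord z) ξ (app T ξ) := by rw [hzf]; exact sm_self h ξ
    have h5 := mul_nonneg h1 h4
    have h6 := mul_nonneg h2 (add_nonneg (mul_self_nonneg (ev (coord z) y (app T ξ)))
      (mul_self_nonneg (ev (coord z) y ξ)))
    linarith

end Vale.Agent.P247T
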