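import Vale.Agent.P247T.Main
import Vale.Agent.P247F.Chain

/-!
# P247T: descent of forms from `ℝ⁴` to the manifold
-/

set_option linter.all false

open scoped BigOperators ContDiff Topology Manifold
open Set Filter Metric

namespace Vale.Agent.P247T

open Vale.Agent.P247 Vale.Agent.P204.T4 Vale.Agent.P204.Mfd
open Vale.Agent.P247X (Hf)
open Vale.Agent.P247.SCY (ax bx cx dch_dsym dsym_dch)

section inv

variable {E F : Type*} [NormedAddCommGroup E] [NormedSpace ℝ E] [CompleteSpace E]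
  [NormedAddCommGroup F] [NormedSpace ℝ F] [CompleteSpace F]

theorem exists_equiv {L : E →L[ℝ] F} (h : Function.Bijective L) :
    ∃ e : E ≃L[ℝ] F, (e : E →L[ℝ] F) = L :=
  ⟨ContinuousLinearEquiv.ofBijective L (LinearMap.ker_eq_bot.2 h.1) (LinearMap.range_eq_top.2 h.2),
    ContinuousLinearEquiv.coe_ofBijective _ _ _⟩

theorem locInv {f : E → F} {U : Set E} (hU : IsOpen U) (hf : ContDiffOn ℝ ∞ f U)
    (hb : ∀ x ∈ U, Function.Bijective (fderiv ℝ f x)) {x0 : E} (hx : x0 ∈ U) :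
    ∃ g : F → E, g (f x0) = x0 ∧ (∀ᶠ y in 𝓝 (f x0), ContDiffAt ℝ ∞ g y ∧ f (g y) = y ∧ g y ∈ U) ∧
      ∀ᶠ x in 𝓝 x0, g (f x) = x := by
  have hd : ∀ x ∈ U, ∃ L : E ≃L[ℝ] F, HasFDerivAt f (L : E →L[ℝ] F) x := fun x hx => by
    obtain ⟨L, hL⟩ := exists_equiv (hb x hx)
    exact ⟨L, hL ▸ ((hf.contDiffAt (hU.mem_nhds hx)).differentiableAt (by simp)).hasFDerivAt⟩
  obtain ⟨L, hL⟩ := hd x0 hx
  have h0 := hf.contDiffAt (hU.mem_nhds hx)
  set e := h0.toOpenPartialHomeomorph f hL (by simp) with he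
  have hs : x0 ∈ e.source := h0.mem_toOpenPartialHomeomorph_source hL (by simp)
  have ht : f x0 ∈ e.target := h0.image_mem_toOpenPartialHomeomorph_target hL (by simp)
  have h1 : e.symm (f x0) = x0 := e.left_inv hs
  refine ⟨e.symm, h1, ?_, ?_⟩
  · have h2 : ∀ᶠ y in 𝓝 (f x0), e.symm y ∈ U :=
      (e.continuousAt_symm ht).eventually (by rw [h1]; exact hU.mem_nhds hx)
    filter_upwards [h2, e.open_target.mem_nhds ht] with y hy hy'
    obtain ⟨L', hL'⟩ := hd _ hy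
    exact ⟨e.contDiffAt_symm hy' hL' (hf.contDiffAt (hU.mem_nhds hy)), e.right_inv hy', hy⟩
  · filter_upwards [e.open_source.mem_nhds hs] with x hx'
    exact e.left_inv hx'

end inv

variable {X : Type} [TopologicalSpace X] [ChartedSpace E4 X]

/-- the differential of a map into the manifold -/
noncomputable def DP {E : Type*} [NormedAddCommGroup E] [NormedSpace ℝ E] (P : E → X) (x : E) :
    E →L[ℝ] E4 := mfderiv 𝓘(ℝ, E) (𝓡 4) P x

/-- the pull-back of a two-form -/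
noncomputable def pb (P : R4 → X) (α : SCY.HS.Form X 2) (x : R4) : Form2 :=
  (bx α (P x)).compContinuousLinearMap (DP P x)

theorem DP_comp {E E' : Type*} [NormedAddCommGroup E] [NormedSpace ℝ E] [NormedAddCommGroup E']
    [NormedSpace ℝ E'] {P : E → X} {f : E' → E} {L : E' →L[ℝ] E} {x : E'}
    (hP : MDifferentiableAt 𝓘(ℝ, E) (𝓡 4) P (f x)) (hf : HasFDerivAt f L x) :
    DP (P ∘ f) x = (DP P (f x)).comp L :=
  (hP.hasMFDerivAt.comp x hf.hasMFDerivAt).mfderiv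

theorem DP_congr {E : Type*} [NormedAddCommGroup E] [NormedSpace ℝ E] {P P' : E → X} {x : E}
    (h : P =ᶠ[𝓝 x] P') : DP P x = DP P' x := h.mfderiv_eq

variable [IsManifold (𝓡 4) ∞ X]

section chart

variable {E : Type*} [NormedAddCommGroup E] [NormedSpace ℝ E] [CompleteSpace E] {P : E → X}
  {U : Set E} (hU : IsOpen U) (hP : ContMDiffOn 𝓘(ℝ, E) (𝓡 4) ∞ P U)
  (hb : ∀ x ∈ U, Function.Bijective (DP P x)) {e : OpenPartialHomeomorph X E4}
  (he : e ∈ atlas E4 X)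

include hU hP in
theorem mdiff_of {x : E} (hx : x ∈ U) : MDifferentiableAt 𝓘(ℝ, E) (𝓡 4) P x :=
  (hP.contMDiffAt (hU.mem_nhds hx)).mdifferentiableAt (by simp)

include hU hP hb he in
theorem loc_chart : IsOpen (U ∩ P ⁻¹' e.source) ∧ ContDiffOn ℝ ∞ (e ∘ P) (U ∩ P ⁻¹' e.source) ∧
    ∀ x ∈ U ∩ P ⁻¹' e.source, DP P x = (dsym e (e (P x))).comp (fderiv ℝ (e ∘ P) x) ∧
      Function.Bijective (fderiv ℝ (e ∘ P) x) := by
  have h1 := hP.continuousOn.isOpen_inter_preimage hU e.open_source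
  have h2 : ContDiffOn ℝ ∞ (e ∘ P) (U ∩ P ⁻¹' e.source) :=
    contMDiffOn_iff_contDiffOn.1 ((contMDiffOn_of_mem_maximalAtlas
      (IsManifold.subset_maximalAtlas he)).comp (hP.mono inter_subset_left) fun x hx => hx.2)
  refine ⟨h1, h2, fun x hx => ?_⟩
  have h3 : fderiv ℝ (e ∘ P) x = (dch e (P x)).comp (DP P x) := by
    rw [← mfderiv_eq_fderiv]
    exact ((mdiff_chart he hx.2).hasMFDerivAt.comp x (mdiff_of hU hP hx.1).hasMFDerivAt).mfderiv
  have ht := e.map_source hx.2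
  have h4 := dsym_dch he ht
  have h5 := dch_dsym he ht
  rw [e.left_inv hx.2] at h4 h5
  rw [h3]
  refine ⟨?_, Function.Bijective.comp (g := dch e (P x)) ⟨fun a b hab => ?_, fun b => ⟨_, h5 b⟩⟩
    (hb x hx.1)⟩
  · ext1 v
    exact (h4 _).symm
  · rw [← h4 a, ← h4 b, hab]

include hU hP hb in
theorem map_nhds_of {x : E} (hx : x ∈ U) {N : Set E} (hN : N ∈ 𝓝 x) :
    ∀ᶠ z in 𝓝 (P x), ∃ x' ∈ N, P x' = z := by
  have he := chart_mem_atlas E4 (P x)
  have hs := mem_chart_source E4 (P x)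
  obtain ⟨h1, h2, h3⟩ := loc_chart hU hP hb he
  obtain ⟨g, g0, g1, -⟩ := locInv h1 h2 (fun x hx => (h3 x hx).2) (x0 := x) ⟨hx, hs⟩
  have g2 : ∀ᶠ y in 𝓝 ((chartAt E4 (P x) ∘ P) x), g y ∈ N :=
    g1.self_of_nhds.1.continuousAt.eventually (by rw [g0]; exact hN)
  filter_upwards [((chartAt E4 (P x)).continuousAt hs).eventually (g1.and g2),
    (chartAt E4 (P x)).open_source.mem_nhds hs] with z hz hz'
  exact ⟨_, hz.2, (chartAt E4 (P x)).injOn hz.1.2.2.2 hz' hz.1.2.1⟩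

end chart

theorem loc_comp {P : R4 → X} {e : OpenPartialHomeomorph X E4} {x : R4} (hx : P x ∈ e.source)
    (h : DP P x = (dsym e (e (P x))).comp (fderiv ℝ (e ∘ P) x)) (β : SCY.HS.Form X 2) :
    pb P β x = (SCY.HS.loc e β ((e ∘ P) x)).compContinuousLinearMap (fderiv ℝ (e ∘ P) x) := by
  have h1 : SCY.HS.loc e β ((e ∘ P) x) =
      (bx β (e.symm (e (P x)))).compContinuousLinearMap (dsym e (e (P x))) := rfl
  rw [h1, e.left_inv hx, pb, h]
  rfl

/-- `P` identifies the torus minus the half lattice points, modulo the sign, with the complement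
of the sets `S a` -/
structure Pres (P : R4 → X) (S : I16 → Set X) : Prop where
  sm : ContMDiffOn 𝓘(ℝ, R4) (𝓡 4) ∞ P Hfᶜ
  imm : ∀ x ∉ Hf, Function.Bijective (DP P x)
  per : ∀ n x, P (x + iv n) = P x
  even : ∀ x, P (-x) = P x
  inj : ∀ x y, x ∉ Hf → y ∉ Hf → P x = P y → ∃ n, y = x + iv n ∨ y = -x + iv n
  surj : ∀ z, (∃ x ∉ Hf, P x = z) ∨ ∃ a, z ∈ S a
  off : ∀ x ∉ Hf, ∀ a, P x ∉ S a
  disj : ∀ a b, ∀ z ∈ S a, z ∈ S b → a = b
  near : ∀ a, ∀ z ∈ S a, ∀ r > (0 : ℝ), ∀ᶠ z' in 𝓝 z,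
    z' ∈ S a ∨ ∃ y, y ≠ 0 ∧ ‖y‖ < r ∧ z' = P (cp a + y)
  dense : ∀ z, z ∈ closure (P '' Hfᶜ)

theorem comp_neg (α : Form2) (L : R4 →L[ℝ] R4) :
    α.compContinuousLinearMap (-L) = α.compContinuousLinearMap L := by
  apply alt_ext
  intro v w
  rw [pullback_apply, pullback_apply, ← ev_coord, ← ev_coord, ContinuousLinearMap.neg_apply,
    ContinuousLinearMap.neg_apply, ev_neg_left, ev_neg_right, neg_neg]

namespace Pres

variable {P : R4 → X} {S : I16 → Set X} (h : Pres P S)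
include h

theorem mdiff {x : R4} (hx : x ∉ Hf) : MDifferentiableAt 𝓘(ℝ, R4) (𝓡 4) P x :=
  mdiff_of isOpen_Hfc h.sm hx

theorem DP_per {x : R4} (hx : x ∉ Hf) (n : Fin 4 → ℤ) : DP P (x + iv n) = DP P x := by
  have h1 := DP_comp (f := fun y => y + iv n) (h.mdiff (mt (add_mem_Hf n).1 hx))
    ((hasFDerivAt_id x).add_const (iv n))
  have h2 : (P ∘ fun y => y + iv n) = P := funext fun y => h.per n y
  rw [h2] at h1
  exact h1.symm

theorem DP_neg {x : R4} (hx : x ∉ Hf) :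
    DP P (-x) = (DP P x).comp (-ContinuousLinearMap.id ℝ R4) := by
  have h1 := DP_comp (f := fun y : R4 => -y) (x := -x) (h.mdiff (x := - -x) (by rwa [neg_neg]))
    (hasFDerivAt_id (-x)).neg
  have h2 : (P ∘ fun y => -y) = P := funext h.even
  rwa [h2, neg_neg] at h1

theorem pb_per (β : SCY.HS.Form X 2) {x : R4} (hx : x ∉ Hf) (n : Fin 4 → ℤ) :
    pb P β (x + iv n) = pb P β x := by
  unfold pb
  rw [h.per, h.DP_per hx]

theorem pb_neg (β : SCY.HS.Form X 2) {x : R4} (hx : x ∉ Hf) : pb P β (-x) = pb P β x := by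
  unfold pb
  rw [h.even, h.DP_neg hx]
  exact comp_neg ((bx β (P x)).compContinuousLinearMap (DP P x)) _

theorem pb_smooth {β : SCY.HS.Form X 2} (s : SCY.HS.Smooth β) (c : SCY.HS.Closed β) {x : R4}
    (hx : x ∉ Hf) : ContDiffAt ℝ ∞ (pb P β) x ∧ extDeriv (pb P β) x = 0 := by
  have he := chart_mem_atlas E4 (P x)
  have hs := mem_chart_source E4 (P x)
  set e := chartAt E4 (P x)
  obtain ⟨h1, h2, h3⟩ := loc_chart isOpen_Hfc h.sm h.imm he
  have h4 : pb P β =ᶠ[𝓝 x] fun x =>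
      (SCY.HS.loc e β ((e ∘ P) x)).compContinuousLinearMap (fderiv ℝ (e ∘ P) x) := by
    filter_upwards [h1.mem_nhds ⟨hx, hs⟩] with y hy
    exact loc_comp hy.2 (h3 y hy).1 β
  have h5 := h2.contDiffAt (h1.mem_nhds ⟨hx, hs⟩)
  have h6 : ContDiffAt ℝ ∞ (SCY.HS.loc e β) ((e ∘ P) x) :=
    (s e he).contDiffAt (e.open_target.mem_nhds (e.map_source hs))
  refine ⟨(smoothAt_pullform h5 h6).congr_of_eventuallyEq h4, ?_⟩
  rw [h4.extDeriv_eq, extDeriv_pullback (h6.differentiableAt (by simp)) h5 minS,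
    c e he ((e ∘ P) x) (e.map_source hs)]
  ext m; rfl

theorem pb_inj {β γ : SCY.HS.Form X 2} {x : R4} (hx : x ∉ Hf) (e : pb P β x = pb P γ x) :
    β (P x) = γ (P x) := by
  show bx β (P x) = bx γ (P x)
  ext m
  choose v hv using fun i => (h.imm x hx).2 (m i)
  have := congrArg (fun α : Form2 => α v) e
  simp only [pb, ContinuousAlternatingMap.compContinuousLinearMap_apply] at this
  rwa [show DP P x ∘ v = m from funext hv] at this

theorem smooth_at {γ : SCY.HS.Form X 2} {α : Form 2} (hγ : ∀ x ∉ Hf, pb P γ x = α x) {x : R4}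
    (hx : x ∉ Hf) (s : ContDiffAt ℝ ∞ α x) (c : extDeriv α x = 0)
    {e : OpenPartialHomeomorph X E4} (he : e ∈ atlas E4 X) (hs : P x ∈ e.source) :
    ContDiffAt ℝ ∞ (SCY.HS.loc e γ) (e (P x)) ∧ extDeriv (SCY.HS.loc e γ) (e (P x)) = 0 := by
  obtain ⟨h1, h2, h3⟩ := loc_chart isOpen_Hfc h.sm h.imm he
  obtain ⟨g, g0, g1, -⟩ := locInv h1 h2 (fun x hx => (h3 x hx).2) (x0 := x) ⟨hx, hs⟩
  have h4 : SCY.HS.loc e γ =ᶠ[𝓝 (e (P x))] fun y =>
      (α (g y)).compContinuousLinearMap (fderiv ℝ g y) := by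
    filter_upwards [g1, g1.eventually_nhds] with y hy hy'
    have k1 : ((e ∘ P) ∘ g) =ᶠ[𝓝 y] id := hy'.mono fun y' hy'' => hy''.2.1
    have k2 := (((h2.contDiffAt (h1.mem_nhds hy.2.2)).differentiableAt (by simp)).hasFDerivAt.comp y
      (hy.1.differentiableAt (by simp)).hasFDerivAt).fderiv
    rw [k1.fderiv_eq, fderiv_id] at k2
    rw [← hγ _ hy.2.2.1, loc_comp hy.2.2.2 (h3 _ hy.2.2).1, hy.2.1]
    show _ = (SCY.HS.loc e γ y).compContinuousLinearMap
      ((fderiv ℝ (e ∘ P) (g y)).comp (fderiv ℝ g y))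
    rw [← k2]
    rfl
  have h5 : ContDiffAt ℝ ∞ g (e (P x)) := g1.self_of_nhds.1
  have g0' : g (e (P x)) = x := g0
  have h6 : ContDiffAt ℝ ∞ α (g (e (P x))) := by rw [g0']; exact s
  refine ⟨(smoothAt_pullform' h5 h6).congr_of_eventuallyEq h4, ?_⟩
  rw [h4.extDeriv_eq, extDeriv_pullback (h6.differentiableAt (by simp)) h5 minS, g0', c]
  ext m; rfl

theorem exists_desc {β : I16 → SCY.HS.Form X 2} (sβ : ∀ a, SCY.HS.Smooth (β a))
    (cβ : ∀ a, SCY.HS.Closed (β a)) {α : Form 2} (s : ∀ x ∉ Hf, ContDiffAt ℝ ∞ α x)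
    (c : ∀ x ∉ Hf, extDeriv α x = 0) (p : ∀ x ∉ Hf, ∀ n, α (x + iv n) = α x)
    (ev : ∀ x ∉ Hf, α (-x) = α x) {ρ : ℝ} (hρ : 0 < ρ)
    (hn : ∀ a y, cp a + y ∉ Hf → ‖y‖ < ρ → α (cp a + y) = pb P (β a) (cp a + y)) :
    ∃ γ : SCY.HS.Form X 2, SCY.HS.Smooth γ ∧ SCY.HS.Closed γ ∧ (∀ x ∉ Hf, pb P γ x = α x) ∧
      ∀ a, ∀ z ∈ S a, γ z = β a z := by
  have key : ∀ z, ∃ γ : E4 [⋀^Fin 2]→L[ℝ] ℝ,
      (∀ x ∉ Hf, P x = z → γ.compContinuousLinearMap (DP P x) = α x) ∧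
      ∀ a, z ∈ S a → γ = bx (β a) z := by
    intro z
    rcases h.surj z with ⟨x, hx, rfl⟩ | ⟨a, ha⟩
    · obtain ⟨L, hL⟩ := exists_equiv (h.imm x hx)
      have k : ((α x).compContinuousLinearMap (L.symm : E4 →L[ℝ] R4)).compContinuousLinearMap
          (DP P x) = α x := by
        rw [← hL]; ext m; simp [Function.comp_def]
      refine ⟨(α x).compContinuousLinearMap (L.symm : E4 →L[ℝ] R4), fun y hy hxy => ?_,
        fun a ha => (h.off x hx a ha).elim⟩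
      have hx' : -x ∉ Hf := mt neg_mem_Hf.1 hx
      obtain ⟨n, rfl | rfl⟩ := h.inj x y hx hy hxy.symm
      · rw [h.DP_per hx, p x hx, k]
      · rw [h.DP_per hx', p _ hx', ev x hx, h.DP_neg hx]
        conv_rhs => rw [← k]
        exact comp_neg (((α x).compContinuousLinearMap
          (L.symm : E4 →L[ℝ] R4)).compContinuousLinearMap (DP P x)) _
    · exact ⟨bx (β a) z, fun x hx hz => (h.off x hx a (hz ▸ ha)).elim,
        fun b hb => by rw [h.disj a b z ha hb]⟩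
  choose γ h1 h2 using key
  have h3 : ∀ x ∉ Hf, pb P γ x = α x := fun x hx => h1 _ x hx rfl
  have fin : ∀ e ∈ atlas E4 X, ∀ y ∈ e.target,
      ContDiffAt ℝ ∞ (SCY.HS.loc e γ) y ∧ extDeriv (SCY.HS.loc e γ) y = 0 := by
    intro e he y hy
    rcases h.surj (e.symm y) with ⟨x, hx, hz⟩ | ⟨a, ha⟩
    · have := h.smooth_at h3 hx (s x hx) (c x hx) he (hz ▸ e.map_target hy)
      rwa [hz, e.right_inv hy] at this
    · have k1 : ∀ᶠ z in 𝓝 (e.symm y), bx γ z = bx (β a) z := by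
        filter_upwards [h.near a _ ha (min ρ (1 / 2)) (by positivity)] with z hz
        rcases hz with hz | ⟨y', y0, hy', rfl⟩
        · exact h2 z a hz
        · have k2 : cp a + y' ∉ Hf := by
            rw [← hp_zero]; exact hp_notMem y0 (hy'.trans_le (min_le_right _ _))
          exact h.pb_inj (β := γ) (γ := β a) k2
            ((h3 _ k2).trans (hn a y' k2 (hy'.trans_le (min_le_left _ _))))
      have k2 : SCY.HS.loc e γ =ᶠ[𝓝 y] SCY.HS.loc e (β a) := by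
        filter_upwards [(e.continuousAt_symm hy).eventually k1] with y' hy'
        show (bx γ (e.symm y')).compContinuousLinearMap (dsym e y') =
          (bx (β a) (e.symm y')).compContinuousLinearMap (dsym e y')
        rw [hy']
      exact ⟨((sβ a e he).contDiffAt (e.open_target.mem_nhds hy)).congr_of_eventuallyEq k2,
        by rw [k2.extDeriv_eq, cβ a e he y hy]⟩
  exact ⟨γ, fun e he y hy => (fin e he y hy).1.contDiffWithinAt, fun e he y hy => (fin e he y hy).2,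
    h3, fun a z hz => h2 z a hz⟩

end Pres

end Vale.Agent.P247T
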