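import Vale.Agent.P247T.KP

/-!
# P247T: the flat end
-/

set_option linter.all false

open scoped BigOperators ContDiff Topology Manifold
open Set Filter Metric

namespace Vale.Agent.P247T

open Vale.Agent.P247 Vale.Agent.P204.T4 Vale.Agent.P204.Mfd
open Vale.Agent.P247X (Hf KP Std Nr B2 om0)
open Vale.Agent.P247.SCY (ax bx cx det_matL)
open Vale.Agent.P247F (triPos_iff hyper_tri)

/-- real coordinates on `ℂ²` -/
noncomputable def jC : ℂ × ℂ →L[ℝ] R4 := ContinuousLinearMap.pi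
  ![Complex.reCLM.comp (ContinuousLinearMap.fst ℝ ℂ ℂ),
    Complex.imCLM.comp (ContinuousLinearMap.fst ℝ ℂ ℂ),
    Complex.reCLM.comp (ContinuousLinearMap.snd ℝ ℂ ℂ),
    Complex.imCLM.comp (ContinuousLinearMap.snd ℝ ℂ ℂ)]

theorem om1_re (a b : ℂ × ℂ) : (dx2 0 2 - dx2 1 3) ![jC a, jC b] = (om1 a b).re := by
  rw [ContinuousAlternatingMap.sub_apply, dx2_apply, dx2_apply]
  simp [jC, om1]
  ring

theorem om1_im (s : ℝ) (a b : ℂ × ℂ) :
    (s • (dx2 0 3 + dx2 1 2)) ![jC a, jC b] = s * (om1 a b).im := by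
  rw [ContinuousAlternatingMap.smul_apply, ContinuousAlternatingMap.add_apply, dx2_apply, dx2_apply]
  simp [jC, om1]
  left; ring

theorem smoothAt_comp {f : R4 → R4} {x : R4} (hf : ContDiffAt ℝ ∞ f x) (c : Form2) :
    ContDiffAt ℝ ∞ (fun y => c.compContinuousLinearMap (fderiv ℝ f y)) x := by
  rw [← contDiffAt_cV_iff]
  simp only [cV_apply, compL_comp]
  exact P204.Mfd.contDiffAt_pull
    (matL.contDiff.contDiffAt.comp x (hf.fderiv_right (m := ∞) (by simp))) contDiffAt_const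

theorem dense_Hfc (x : R4) : x ∈ closure (Hfᶜ : Set R4) := by
  by_cases h : x ∈ Hf
  · obtain ⟨q, rfl⟩ := mem_Hf.1 h
    refine mem_closure_of_tendsto (f := id) (b := 𝓝[≠] (hp q)) nhdsWithin_le_nhds ?_
    filter_upwards [self_mem_nhdsWithin, nhdsWithin_le_nhds
      (ball_mem_nhds (hp q) (show (0 : ℝ) < 1 / 2 by norm_num))] with y hy hy'
    have := hp_notMem (q := q) (sub_ne_zero.2 hy) (mem_ball_iff_norm.1 hy')
    rwa [add_sub_cancel] at this
  · exact subset_closure h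

theorem pairPos_of_comp {a b : Form2} {L : R4 →L[ℝ] R4} (hL : 0 < L.det)
    (h : PairPos (coord (a.compContinuousLinearMap L)) (coord (b.compContinuousLinearMap L))) :
    PairPos (coord a) (coord b) := by
  obtain ⟨h1, h2⟩ := h
  unfold gd at h2
  simp only [← wedge_eq_B, wedge_pullback] at h1 h2
  refine ⟨(pos_iff_pos_of_mul_pos h1).1 hL, ?_⟩
  have h3 : 0 < (L.det * L.det) * (wedge a a * wedge b b - wedge a b ^ 2) := by linarith
  exact (pos_iff_pos_of_mul_pos h3).1 (mul_pos hL hL)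

variable {X : Type} [TopologicalSpace X] [ChartedSpace E4 X] [IsManifold (𝓡 4) ∞ X]
  {w : Fin 3 → SCY.HS.Form X 2}

/-- the normalised charts at the half lattice points -/
structure Chs (P : R4 → X) (w : Fin 3 → SCY.HS.Form X 2) (φ : I16 → R4 → R4) (r : ℝ)
    (c : Fin 2 → I16 → Form2) : Prop where
  r_pos : 0 < r
  r_le : r ≤ 1 / 4
  sφ : ∀ a, ∀ y ∈ ball (0 : R4) r, ContDiffAt ℝ ∞ (φ a) y
  oφ : ∀ a, ∀ y ∈ ball (0 : R4) r, φ a (-y) = -φ a y
  dφ : ∀ a, fderiv ℝ (φ a) 0 = ContinuousLinearMap.id ℝ R4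
  loc : ∀ (j : Fin 2) a, ∀ y ∈ ball (0 : R4) r, y ≠ 0 →
    pb P (w j.castSucc) (cp a + y) = (c j a).compContinuousLinearMap (fderiv ℝ (φ a) y)

theorem exists_chs (K : KP w) : ∃ φ r c, Chs K.P w φ r c := by
  choose g g0 g1 g2 using fun a =>
    locInv (isOpen_B2 K.ρ) (K.θ_smooth a) (K.θ_imm a) (zero_B2 K.ρ_pos)
  simp only [θ0] at g0 g1
  have hθ : ∀ a, ∀ z ∈ B2 K.ρ, HasFDerivAt (K.θ a) (fderiv ℝ (K.θ a) z) z := fun a z hz =>
    (((K.θ_smooth a).contDiffAt ((isOpen_B2 _).mem_nhds hz)).differentiableAt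
      (by simp)).hasFDerivAt
  have hev : ∀ᶠ y in 𝓝 (0 : R4), ∀ a, ∀ᶠ x in 𝓝 (cp a + y),
      ContDiffAt ℝ ∞ (g a) x ∧ K.θ a (g a x) = x ∧ g a x ∈ B2 K.ρ := by
    refine eventually_all.2 fun a => ?_
    have : Tendsto (fun y : R4 => cp a + y) (𝓝 0) (𝓝 (cp a)) := by
      simpa using (continuous_add_left (cp a)).tendsto 0
    exact this.eventually (g1 a).eventually_nhds
  obtain ⟨r, hr0, hr⟩ := Metric.eventually_nhds_iff.1 hev
  have hr' : ∀ a, ∀ y ∈ ball (0 : R4) (min r (1 / 4)), ∀ᶠ x in 𝓝 (cp a + y),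
      ContDiffAt ℝ ∞ (g a) x ∧ K.θ a (g a x) = x ∧ g a x ∈ B2 K.ρ := fun a y hy =>
    hr (ball_subset_ball (min_le_left _ _) hy) a
  have hg : ∀ a, ∀ y ∈ ball (0 : R4) (min r (1 / 4)),
      HasFDerivAt (g a) (fderiv ℝ (g a) (cp a + y)) (cp a + y) := fun a y hy =>
    ((hr' a y hy).self_of_nhds.1.differentiableAt (by simp)).hasFDerivAt
  have k1 : ∀ a, ∀ y ∈ ball (0 : R4) (min r (1 / 4)), ∀ v,
      fderiv ℝ (K.θ a) (g a (cp a + y)) (fderiv ℝ (g a) (cp a + y) v) = v := by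
    intro a y hy v
    have h1 := ((hθ a _ (hr' a y hy).self_of_nhds.2.2).comp _ (hg a y hy)).fderiv
    have h2 : (K.θ a ∘ g a) =ᶠ[𝓝 (cp a + y)] id := (hr' a y hy).mono fun x hx => hx.2.1
    rw [h2.fderiv_eq, fderiv_id] at h1
    exact (congrArg (fun M : R4 →L[ℝ] R4 => M v) h1).symm
  have hb : (0 : R4) ∈ ball (0 : R4) (min r (1 / 4)) := mem_ball_self (by positivity)
  have k2 : ∀ a v, fderiv ℝ (g a) (cp a) (fderiv ℝ (K.θ a) 0 v) = v := by
    intro a v
    have h1 := k1 a 0 hb (fderiv ℝ (K.θ a) 0 v)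
    rw [add_zero, g0] at h1
    exact (K.θ_imm a 0 (zero_B2 K.ρ_pos)).1 h1
  have k3 : ∀ a, ∀ y ∈ ball (0 : R4) (min r (1 / 4)),
      fderiv ℝ (fun y => fderiv ℝ (K.θ a) 0 (g a (cp a + y))) y =
        (fderiv ℝ (K.θ a) 0).comp (fderiv ℝ (g a) (cp a + y)) := fun a y hy =>
    ((fderiv ℝ (K.θ a) 0).hasFDerivAt.comp y ((hasFDerivAt_comp_add_left _).2 (hg a y hy))).fderiv
  refine ⟨fun a y => fderiv ℝ (K.θ a) 0 (g a (cp a + y)), min r (1 / 4),
    ![fun a => (dx2 0 2 - dx2 1 3).compContinuousLinearMap (jC.comp (fderiv ℝ (g a) (cp a))),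
      fun a => ((K.St a).s • (dx2 0 3 + dx2 1 2)).compContinuousLinearMap
        (jC.comp (fderiv ℝ (g a) (cp a)))], by positivity, min_le_right _ _, fun a y hy => ?_,
    fun a y hy => ?_, fun a => ?_, fun j a y hy y0 => ?_⟩
  · exact (fderiv ℝ (K.θ a) 0).contDiff.contDiffAt.comp y
      ((hr' a y hy).self_of_nhds.1.comp y (contDiffAt_const.add contDiffAt_id))
  · obtain ⟨-, h1, h2⟩ := (hr' a y hy).self_of_nhds
    obtain ⟨-, h3, h4⟩ := (hr' a (-y) (by simpa using hy)).self_of_nhds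
    have h5 : -g a (cp a + y) ∈ B2 K.ρ := by simpa [B2] using h2
    rw [← map_neg, K.θ_inj a h4 h5]
    rw [h3, K.θ_odd a _ h2, h1]
    funext i
    simp only [cp, Pi.add_apply, Pi.neg_apply]
    ring
  · rw [k3 a 0 hb]
    ext1 v
    have := k1 a 0 hb v
    rw [add_zero, g0] at this
    rw [add_zero]
    exact this
  · obtain ⟨-, h1, h2⟩ := (hr' a y hy).self_of_nhds
    have h3 : g a (cp a + y) ≠ 0 := fun h0 => by
      rw [h0, θ0] at h1
      exact y0 (by simpa using h1)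
    apply alt_ext
    intro v v'
    have h4 := pb_theta K a h2 h3 (fderiv ℝ (g a) (cp a + y) v) (fderiv ℝ (g a) (cp a + y) v')
    rw [k1 a y hy, k1 a y hy, h1] at h4
    rw [k3 a y hy, pullback_apply]
    fin_cases j
    · refine h4.1.trans ?_
      rw [← om1_re]
      simp only [Fin.zero_eta, Matrix.cons_val_zero, pullback_apply, ContinuousLinearMap.comp_apply,
        k2]
    · refine h4.2.trans ?_
      rw [← om1_im]
      simp only [Fin.mk_one, Matrix.cons_val_one, Matrix.cons_val_zero, pullback_apply,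
        ContinuousLinearMap.comp_apply, k2]

theorem exists_ext {P : R4 → X} {S : I16 → Set X} (h : Pres P S) {φ : I16 → R4 → R4} {r : ℝ}
    {c : Fin 2 → I16 → Form2} (C : Chs P w φ r c) (j : Fin 2)
    (s : SCY.HS.Smooth (w j.castSucc)) (cl : SCY.HS.Closed (w j.castSucc)) :
    ∃ u : Form 2, SPC u ∧ (∀ x, u (-x) = u x) ∧ (∀ x ∉ Hf, pb P (w j.castSucc) x = u x) ∧
      ∀ a, ∀ y ∈ ball (0 : R4) r,
        u (cp a + y) = (u (cp a)).compContinuousLinearMap (fderiv ℝ (φ a) y) := by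
  classical
  set u : Form 2 := fun x => if x ∈ Hf then gl (fun a _ => c j a) x else pb P (w j.castSucc) x
    with hu
  have h1 : ∀ x ∉ Hf, pb P (w j.castSucc) x = u x := fun x hx => by simp only [hu, if_neg hx]
  have h2 : ∀ q, u (hp q) = c j q.1 := fun q => by
    simp only [hu, if_pos (mem_Hf.2 ⟨q, rfl⟩)]
    exact gl_eq (by simp)
  have hper : ∀ n x, u (x + iv n) = u x := fun n x => by
    by_cases hx : x ∈ Hf
    · simp only [hu, if_pos hx, if_pos ((add_mem_Hf n).2 hx), gl_per]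
    · rw [← h1 x hx, ← h1 _ (mt (add_mem_Hf n).1 hx), h.pb_per _ hx]
  have h3 : ∀ a, ∀ y ∈ ball (0 : R4) r,
      u (cp a + y) = (c j a).compContinuousLinearMap (fderiv ℝ (φ a) y) := fun a y hy => by
    by_cases y0 : y = 0
    · rw [y0, add_zero, C.dφ, comp_id, ← hp_zero, h2]
    · rw [← C.loc j a y hy y0, h1]
      rw [← hp_zero]
      exact hp_notMem y0 (by linarith [mem_ball_zero_iff.1 hy, C.r_le])
  have h4 : ∀ x, ContDiffAt ℝ ∞ u x ∧ extDeriv u x = 0 := fun x => by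
    by_cases hx : x ∈ Hf
    · obtain ⟨q, rfl⟩ := mem_Hf.1 hx
      have k1 : u =ᶠ[𝓝 (hp q)] fun x =>
          (c j q.1).compContinuousLinearMap (fderiv ℝ (fun x => φ q.1 (x - hp q)) x) := by
        filter_upwards [ball_mem_nhds (hp q) C.r_pos] with x hx
        rw [fderiv_comp_sub, ← h3 _ _ (by simpa [dist_eq_norm] using hx),
          ← hper q.2 (cp q.1 + (x - hp q))]
        congr 1
        rw [hp]; abel
      have k2 : ContDiffAt ℝ ∞ (fun x => φ q.1 (x - hp q)) (hp q) :=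
        ContDiffAt.comp (g := φ q.1) (hp q)
          (by rw [sub_self]; exact C.sφ _ _ (mem_ball_self C.r_pos))
          (contDiffAt_id.sub contDiffAt_const)
      refine ⟨(smoothAt_comp k2 _).congr_of_eventuallyEq k1, ?_⟩
      rw [k1.extDeriv_eq]
      refine (extDeriv_pullback (differentiableAt_const (c j q.1)) k2 minS).trans ?_
      rw [extDeriv_const']
      ext m; rfl
    · have k1 : u =ᶠ[𝓝 x] pb P (w j.castSucc) := by
        filter_upwards [isOpen_Hfc.mem_nhds hx] with y hy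
        exact (h1 y hy).symm
      exact ⟨(h.pb_smooth s cl hx).1.congr_of_eventuallyEq k1,
        by rw [k1.extDeriv_eq, (h.pb_smooth s cl hx).2]⟩
  refine ⟨u, ⟨⟨contDiff_iff_contDiffAt.2 fun x => (h4 x).1, hper⟩, fun x => (h4 x).2⟩, fun x => ?_,
    h1, fun a y hy => by rw [h3 a y hy, ← hp_zero, h2]⟩
  by_cases hx : x ∈ Hf
  · simp only [hu, if_pos hx, if_pos (neg_mem_Hf.2 hx)]
    exact gl_neg (fun v => v) rfl (fun _ _ => rfl) x
  · rw [← h1 x hx, ← h1 _ (mt neg_mem_Hf.1 hx), h.pb_neg _ hx]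

/-- **block T** -/
theorem flatend : P247X.FLATEND_statement := by
  intro X _ μ hμ w hw K
  have h := pres K
  obtain ⟨φ, r, c, C⟩ := exists_chs K
  obtain ⟨u, su, eu, pu, lu⟩ := exists_ext h C 0 (hw.smooth _) (hw.closed _)
  obtain ⟨v, sv, -, pv, lv⟩ := exists_ext h C 1 (hw.smooth _) (hw.closed _)
  have e0 : ∀ β x, coord (pb K.P β x) 0 =
      β (K.P x) ![P247X.dm4 K.P x (H74.e 0), P247X.dm4 K.P x (H74.e 1)] := fun β x =>
    comp_apply2 _ _ _ _
  have e5 : ∀ β x, coord (pb K.P β x) 5 =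
      β (K.P x) ![P247X.dm4 K.P x (H74.e 2), P247X.dm4 K.P x (H74.e 3)] := fun β x =>
    comp_apply2 _ _ _ _
  have hd : ∀ x ∉ Hf, SCY.Def3 ((ax μ (K.P x) SCY.HS.bas)⁻¹ * det4 (jm K.P x))
      (coord (pb K.P (w 2) x)) (coord (pb K.P (w 0) x)) (coord (pb K.P (w 1) x)) := by
    intro x hx
    rw [coord_pb, coord_pb, coord_pb]
    refine SCY.def3_pull (triPos_iff.1 (hyper_tri hw) _) ?_
    rw [jm, det_matL]
    have k : Function.Bijective ((toE.symm : E4 →L[ℝ] V4).comp (DP K.P x)) :=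
      toE.symm.bijective.comp (h.imm x hx)
    exact ((LinearMap.isUnit_iff_isUnit_det _).1 ((Module.End.isUnit_iff _).2 k)).ne_zero
  have ori : ∀ x ∉ Hf, 0 < (ax μ (K.P x) SCY.HS.bas)⁻¹ * det4 (jm K.P x) := fun x hx =>
    not_neg (hd x hx) ((e0 _ _).trans (K.lag x hx 0).1) ((e5 _ _).trans (K.lag x hx 0).2)
      ((e0 _ _).trans (K.lag x hx 1).1) ((e5 _ _).trans (K.lag x hx 1).2)
      (by rw [e0]; exact (K.pos x hx).1) (by rw [e5]; exact (K.pos x hx).2)
  have d3 : ∀ x ∉ Hf, Def3c (coord (u x)) (coord (v x)) (coord (pb K.P (w 2) x)) := fun x hx => by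
    rw [← pu x hx, ← pv x hx]
    exact (d3_of_scy (ori x hx)).1 (hd x hx)
  have five : ∀ (j : Fin 2) {u : Form 2}, SPC u → (∀ x ∉ Hf, pb K.P (w j.castSucc) x = u x) →
      ∀ x, coord (u x) 5 = 0 := fun j u su pu x =>
    closure_minimal (t := {x | coord (u x) 5 = 0})
      (fun x hx => by
        show coord (u x) 5 = 0
        rw [← pu x hx]; exact (e5 _ _).trans (K.lag x hx j).2)
      (isClosed_eq (su.1.coord.proj 5).continuous continuous_const) (dense_Hfc x)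
  refine flat_end hμ h hw ori (φ := φ) (r := r) ⟨su, sv, eu, five 0 su pu, five 1 sv pv, fun x => ?_,
    fun x hx => (h.pb_smooth (hw.smooth 2) (hw.closed 2) hx).1.continuousAt.continuousWithinAt,
    fun x hx n => h.pb_per _ hx n, fun x hx => by rw [e5]; exact (K.pos x hx).2, d3, C.r_pos,
    fun a y hy => (C.sφ a y hy).contDiffWithinAt, C.oφ, C.dφ, lu, lv⟩ pu pv
  by_cases hx : x ∈ Hf
  · obtain ⟨q, rfl⟩ := mem_Hf.1 hx
    rw [hp, su.1.per, sv.1.per]
    have c1 : ContinuousAt (fun y => (fderiv ℝ (φ q.1) y).det) 0 :=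
      ContinuousLinearMap.continuous_det.continuousAt.comp
        ((C.sφ _ _ (mem_ball_self C.r_pos)).fderiv_right (m := ∞) (by simp)).continuousAt
    have c2 : ∀ᶠ y in 𝓝 (0 : R4), 0 < (fderiv ℝ (φ q.1) y).det :=
      c1.eventually (lt_mem_nhds (by simp [C.dφ, ContinuousLinearMap.det]))
    obtain ⟨y, ⟨h1, h2⟩, y0⟩ := (((c2.and (ball_mem_nhds (0 : R4) C.r_pos)).filter_mono
      (nhdsWithin_le_nhds (s := {0}ᶜ))).and self_mem_nhdsWithin).exists
    have h3 : cp q.1 + y ∉ Hf := by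
      rw [← hp_zero]
      exact hp_notMem y0 (by linarith [mem_ball_zero_iff.1 h2, C.r_le])
    have := (d3 _ h3).pairPos
    rw [lu _ _ h2, lv _ _ h2] at this
    exact pairPos_of_comp h1 this
  · exact (d3 x hx).pairPos

end Vale.Agent.P247T
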