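import Vale.Agent.P247T.Cut
import Vale.Agent.P247X.Spec

/-!
# P247T: gluing local data at the half lattice points, patching maps of the torus
-/

set_option linter.all false

open scoped BigOperators ContDiff Topology
open Set Filter Metric

namespace Vale.Agent.P247T

open Vale.Agent.P247
open Vale.Agent.P247X (Hf)

/-- the classes of half lattice points -/
abbrev I16 := Fin 4 → Fin 2

/-- the representative of a class -/
noncomputable def cp (a : I16) : R4 := fun i => ((a i : ℕ) : ℝ) / 2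

/-- half lattice points -/
noncomputable def hp (q : I16 × (Fin 4 → ℤ)) : R4 := cp q.1 + iv q.2

theorem hp_inj {q q' : I16 × (Fin 4 → ℤ)} (h : ‖hp q - hp q'‖ < 1 / 2) : q = q' := by
  have key : ∀ i, ((q.1 i : ℕ) : ℤ) + 2 * q.2 i = ((q'.1 i : ℕ) : ℤ) + 2 * q'.2 i := by
    intro i
    have h1 := (norm_le_pi_norm (hp q - hp q') i).trans_lt h
    rw [Real.norm_eq_abs, abs_lt] at h1
    simp only [hp, cp, iv, Pi.sub_apply, Pi.add_apply] at h1
    have h2 : (((q.1 i : ℕ) : ℤ) + 2 * q.2 i - (((q'.1 i : ℕ) : ℤ) + 2 * q'.2 i) : ℤ) < 1 := by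
      have : ((((q.1 i : ℕ) : ℤ) + 2 * q.2 i - (((q'.1 i : ℕ) : ℤ) + 2 * q'.2 i) : ℤ) : ℝ) < 1 := by
        push_cast; linarith [h1.2]
      exact_mod_cast this
    have h3 : -1 < (((q.1 i : ℕ) : ℤ) + 2 * q.2 i - (((q'.1 i : ℕ) : ℤ) + 2 * q'.2 i) : ℤ) := by
      have : (-1 : ℝ) <
          ((((q.1 i : ℕ) : ℤ) + 2 * q.2 i - (((q'.1 i : ℕ) : ℤ) + 2 * q'.2 i) : ℤ) : ℝ) := by
        push_cast; linarith [h1.1]
      exact_mod_cast this
    omega
  refine Prod.ext (funext fun i => Fin.ext ?_) (funext fun i => ?_)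
  · have := key i; have := (q.1 i).2; have := (q'.1 i).2; omega
  · have := key i; have := (q.1 i).2; have := (q'.1 i).2; omega

theorem mem_Hf {x : R4} : x ∈ Hf ↔ ∃ q, x = hp q := by
  constructor
  · intro h
    choose n hn using h
    refine ⟨(fun i => ⟨(n i % 2).toNat, by omega⟩, fun i => n i / 2), funext fun i => ?_⟩
    have h1 : (((n i % 2).toNat : ℕ) : ℤ) + 2 * (n i / 2) = n i := by omega
    have h2 : (((n i % 2).toNat : ℕ) : ℝ) + 2 * ((n i / 2 : ℤ) : ℝ) = n i := by exact_mod_cast h1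
    simp only [hp, cp, iv, Pi.add_apply]
    rw [hn i]; linarith
  · rintro ⟨q, rfl⟩ i
    refine ⟨(q.1 i : ℕ) + 2 * q.2 i, ?_⟩
    simp only [hp, cp, iv, Pi.add_apply]
    push_cast; ring

theorem hp_add (q : I16 × (Fin 4 → ℤ)) (n : Fin 4 → ℤ) : hp q + iv n = hp (q.1, q.2 + n) := by
  funext i
  simp only [hp, cp, iv, Pi.add_apply]
  push_cast; ring

theorem hp_neg (q : I16 × (Fin 4 → ℤ)) :
    -hp q = hp (q.1, fun i => -q.2 i - (q.1 i : ℕ)) := by
  funext i
  simp only [hp, cp, iv, Pi.add_apply, Pi.neg_apply]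
  push_cast; ring

theorem hp_zero (a : I16) : hp (a, 0) = cp a := by
  funext i; simp [hp, iv]

theorem iv_neg (n : Fin 4 → ℤ) : iv (-n) = -iv n := by
  funext i; simp [iv]

theorem add_mem_Hf {x : R4} (n : Fin 4 → ℤ) : x + iv n ∈ Hf ↔ x ∈ Hf := by
  simp only [mem_Hf]
  constructor
  · rintro ⟨q, hq⟩
    exact ⟨_, by rw [← hp_add q (-n), ← hq, iv_neg, add_neg_cancel_right]⟩
  · rintro ⟨q, rfl⟩
    exact ⟨_, hp_add q n⟩

theorem neg_mem_Hf {x : R4} : -x ∈ Hf ↔ x ∈ Hf := by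
  simp only [mem_Hf]
  constructor
  · rintro ⟨q, hq⟩
    exact ⟨_, by rw [← hp_neg q, ← hq, neg_neg]⟩
  · rintro ⟨q, rfl⟩
    exact ⟨_, hp_neg q⟩

theorem hp_notMem {q : I16 × (Fin 4 → ℤ)} {y : R4} (h0 : y ≠ 0) (hy : ‖y‖ < 1 / 2) :
    hp q + y ∉ Hf := by
  rw [mem_Hf]
  rintro ⟨q', hq'⟩
  have : q' = q := hp_inj (by rw [← hq', add_sub_cancel_left]; exact hy)
  rw [this] at hq'
  exact h0 (by simpa using hq')

theorem isOpen_Hfc : IsOpen (Hfᶜ : Set R4) := by
  rw [isOpen_iff_mem_nhds]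
  intro x hx
  by_cases h : ∃ q, ‖x - hp q‖ < 1 / 4
  · obtain ⟨q, hq⟩ := h
    have h0 : x ≠ hp q := fun h0 => hx (mem_Hf.2 ⟨q, h0⟩)
    filter_upwards [isOpen_ne.mem_nhds h0, ball_mem_nhds x (show (0 : ℝ) < 1 / 4 by norm_num)]
      with y hy hy'
    have h1 : ‖y - hp q‖ < 1 / 2 := by
      have := norm_sub_le_norm_sub_add_norm_sub y x (hp q)
      rw [mem_ball_iff_norm] at hy'
      linarith
    have := hp_notMem (q := q) (sub_ne_zero.2 hy) h1
    rwa [add_sub_cancel] at this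
  · push Not at h
    filter_upwards [ball_mem_nhds x (show (0 : ℝ) < 1 / 4 by norm_num)] with y hy hy'
    obtain ⟨q, rfl⟩ := mem_Hf.1 hy'
    rw [mem_ball_iff_norm, norm_sub_rev] at hy
    linarith [h q]

theorem SP.hp {E : Type} [NormedAddCommGroup E] [NormedSpace ℝ E] {f : R4 → E} (h : SP f)
    (q : I16 × (Fin 4 → ℤ)) (y : R4) : f (hp q + y) = f (cp q.1 + y) := by
  rw [P247T.hp, add_right_comm, h.per]

section gl

variable {E : Type} [NormedAddCommGroup E] [NormedSpace ℝ E]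

open Classical in
/-- the periodic function given by `H a` near the points of class `a` -/
noncomputable def gl (H : I16 → R4 → E) (x : R4) : E :=
  if h : ∃ q, ‖x - hp q‖ < 1 / 4 then H h.choose.1 (x - hp h.choose) else 0

variable {H : I16 → R4 → E} {r : ℝ}

theorem gl_eq {x : R4} {q : I16 × (Fin 4 → ℤ)} (h : ‖x - hp q‖ < 1 / 4) :
    gl H x = H q.1 (x - hp q) := by
  have h1 : ∃ q, ‖x - hp q‖ < 1 / 4 := ⟨q, h⟩
  have h2 : h1.choose = q := by
    apply hp_inj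
    have h3 := h1.choose_spec
    have := norm_sub_le_norm_sub_add_norm_sub (hp h1.choose) x (hp q)
    rw [norm_sub_rev] at h3
    linarith
  rw [gl, dif_pos h1, h2]

theorem gl_add (q : I16 × (Fin 4 → ℤ)) {y : R4} (h : ‖y‖ < 1 / 4) :
    gl H (hp q + y) = H q.1 y := by
  rw [gl_eq (q := q) (by rwa [add_sub_cancel_left]), add_sub_cancel_left]

theorem gl_far (hH : ∀ a y, r ≤ ‖y‖ → H a y = 0) {x : R4} (h : ∀ q, r ≤ ‖x - hp q‖) :
    gl H x = 0 := by
  unfold gl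
  split_ifs with h1
  · exact hH _ _ (h _)
  · rfl

theorem gl_none {x : R4} (h : ∀ q, 1 / 4 ≤ ‖x - hp q‖) : gl H x = 0 := by
  rw [gl, dif_neg]
  push Not
  exact h

theorem gl_near {x : R4} {q : I16 × (Fin 4 → ℤ)} (h : ‖x - hp q‖ < 1 / 4) :
    gl H =ᶠ[𝓝 x] fun x' => H q.1 (x' - hp q) := by
  have hc : Continuous fun x' : R4 => ‖x' - hp q‖ := by fun_prop
  filter_upwards [hc.continuousAt.eventually (gt_mem_nhds h)] with x' hx'
  exact gl_eq hx'

theorem gl_far_ev (hH : ∀ a y, r ≤ ‖y‖ → H a y = 0) {x : R4} {r' : ℝ} (hr : r < r')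
    (h : ∀ q, r' ≤ ‖x - hp q‖) : gl H =ᶠ[𝓝 x] fun _ => 0 := by
  filter_upwards [ball_mem_nhds x (sub_pos.2 hr)] with y hy
  refine gl_far hH fun q => ?_
  have := norm_sub_le_norm_sub_add_norm_sub x y (hp q)
  rw [mem_ball_iff_norm, norm_sub_rev] at hy
  linarith [h q]

theorem gl_local (hH : ∀ a y, r ≤ ‖y‖ → H a y = 0) (hr : r < 1 / 4) (x : R4) :
    (∃ q : I16 × (Fin 4 → ℤ), gl H =ᶠ[𝓝 x] fun x' => H q.1 (x' - hp q)) ∨
      gl H =ᶠ[𝓝 x] fun _ => 0 := by
  by_cases h : ∃ q, ‖x - hp q‖ < 1 / 4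
  · obtain ⟨q, hq⟩ := h
    exact Or.inl ⟨q, gl_near hq⟩
  · push Not at h
    exact Or.inr (gl_far_ev hH hr h)

theorem gl_per (x : R4) (n : Fin 4 → ℤ) : gl H (x + iv n) = gl H x := by
  by_cases h : ∃ q, ‖x - hp q‖ < 1 / 4
  · obtain ⟨q, hq⟩ := h
    have e : x + iv n - hp (q.1, q.2 + n) = x - hp q := by rw [← hp_add]; abel
    rw [gl_eq hq, gl_eq (q := (q.1, q.2 + n)) (by rw [e]; exact hq), e]
  · push Not at h
    rw [gl_none h, gl_none fun q => ?_]
    have e : x + iv n - hp q = x - hp (q.1, q.2 + -n) := by rw [← hp_add, iv_neg]; abel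
    rw [e]; exact h _

theorem gl_neg (T : E → E) (h0 : T 0 = 0) (hT : ∀ a y, H a (-y) = T (H a y)) (x : R4) :
    gl H (-x) = T (gl H x) := by
  by_cases h : ∃ q, ‖x - hp q‖ < 1 / 4
  · obtain ⟨q, hq⟩ := h
    have e : -x - hp (q.1, fun i => -q.2 i - (q.1 i : ℕ)) = -(x - hp q) := by rw [← hp_neg]; abel
    rw [gl_eq hq, gl_eq (q := (q.1, fun i => -q.2 i - (q.1 i : ℕ))) (by rw [e, norm_neg]; exact hq),
      e, hT]
  · push Not at h
    rw [gl_none h, h0, gl_none fun q => ?_]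
    have e : -x - hp q = -(x - hp (q.1, fun i => -q.2 i - (q.1 i : ℕ))) := by rw [← hp_neg]; abel
    rw [e, norm_neg]; exact h _

theorem gl_sp (hH : ∀ a y, r ≤ ‖y‖ → H a y = 0) (hr : r < 1 / 4) (hs : ∀ a, ContDiff ℝ ∞ (H a)) :
    SP (gl H) := by
  refine ⟨contDiff_iff_contDiffAt.2 fun x => ?_, fun n x => gl_per x n⟩
  rcases gl_local hH hr x with ⟨q, hq⟩ | hq
  · exact ((hs q.1).comp (contDiff_id.sub contDiff_const)).contDiffAt.congr_of_eventuallyEq hq
  · exact contDiffAt_const.congr_of_eventuallyEq hq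

end gl

theorem gl_spc {H : I16 → Form 2} {r : ℝ} (hH : ∀ a y, r ≤ ‖y‖ → H a y = 0) (hr : r < 1 / 4)
    (hs : ∀ a, ContDiff ℝ ∞ (H a)) (hc : ∀ a y, extDeriv (H a) y = 0) : SPC (gl H) := by
  refine ⟨gl_sp hH hr hs, fun x => ?_⟩
  rcases gl_local hH hr x with ⟨q, hq⟩ | hq
  · rw [hq.extDeriv_eq, ← hc q.1 (x - hp q)]
    unfold extDeriv
    rw [fderiv_comp_sub]
  · rw [hq.extDeriv_eq]
    exact extDeriv_const' _ _

/-- `id + V` agrees with `id + U` away from the half lattice, with the germs `G a` near it, and its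
derivative stays close to the segments between the derivatives at the half lattice points -/
structure Patch (U : R4 → R4) (G : I16 → R4 → R4) (η ρ0 : ℝ) (V : R4 → R4) (ρ ρ' : ℝ) : Prop where
  sp : SP V
  odd : ∀ x, V (-x) = -V x
  pos : 0 < ρ'
  le : ρ' ≤ ρ
  le0 : ρ ≤ ρ0
  far : ∀ x, (∀ q, ρ ≤ ‖x - hp q‖) → V x = U x ∧ jac V x = jac U x
  near : ∀ q y, ‖y‖ < ρ' → y + V (hp q + y) = U (cp q.1) + G q.1 y ∧
    jac V (hp q + y) = fderiv ℝ (G q.1) y
  val : ∀ q y, ‖y‖ < ρ → ∃ t ∈ Icc (0 : ℝ) 1,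
    V (hp q + y) = U (cp q.1 + y) + t • (G q.1 y - y - U (cp q.1 + y) + U (cp q.1))
  mid : ∀ q y, ‖y‖ < ρ → ∃ t ∈ Icc (0 : ℝ) 1,
    ‖jac V (hp q + y) - ((1 - t) • jac U (cp q.1) + t • fderiv ℝ (G q.1) 0)‖ < η

theorem exists_patch {U : R4 → R4} (hU : SP U) (oU : ∀ x, U (-x) = -U x) {G : I16 → R4 → R4}
    {r : ℝ} (hr : 0 < r) (hG : ∀ a, ContDiffOn ℝ ∞ (G a) (ball 0 r))
    (oG : ∀ a, ∀ y ∈ ball (0 : R4) r, G a (-y) = -G a y) {η ρ0 : ℝ} (hη : 0 < η) (hρ0 : 0 < ρ0) :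
    ∃ V ρ ρ', Patch U G η ρ0 V ρ ρ' := by
  set D : I16 → R4 → R4 := fun a y => G a y - y - U (cp a + y) + U (cp a) with hD
  have hGa : ∀ a, ∀ y ∈ ball (0 : R4) r, ContDiffAt ℝ ∞ (G a) y := fun a y hy =>
    (hG a).contDiffAt (isOpen_ball.mem_nhds hy)
  have hUs : ∀ a, ContDiff ℝ ∞ fun y => U (cp a + y) := fun a =>
    hU.1.comp (contDiff_const.add contDiff_id)
  have hDa : ∀ a, ∀ y ∈ ball (0 : R4) r, ContDiffAt ℝ ∞ (D a) y := fun a y hy =>
    (((hGa a y hy).sub contDiffAt_id).sub (hUs a).contDiffAt).add contDiffAt_const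
  have hDd : ∀ a, ∀ y ∈ ball (0 : R4) r,
      HasFDerivAt (D a) (fderiv ℝ (G a) y - jac U (cp a + y)) y := by
    intro a y hy
    have h1 := ((hGa a y hy).differentiableAt (by simp)).hasFDerivAt
    have h2 : HasFDerivAt (fun y => U (cp a + y)) (fderiv ℝ U (cp a + y)) y :=
      (hasFDerivAt_comp_add_left _).2 (hU.differentiable _).hasFDerivAt
    have h3 := ((h1.sub (hasFDerivAt_id y)).sub h2).add_const (U (cp a))
    have e : fderiv ℝ (G a) y - jac U (cp a + y) = fderiv ℝ (G a) y -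
        ContinuousLinearMap.id ℝ R4 - fderiv ℝ U (cp a + y) := by
      unfold jac; abel
    rw [e]; exact h3
  have hG0 : ∀ a, G a 0 = 0 := fun a => by
    have := oG a 0 (mem_ball_self hr)
    rw [neg_zero] at this
    exact self_eq_neg.1 this
  have hD0 : ∀ a, D a 0 = 0 := fun a => by simp [hD, hG0]
  have hU2 : ∀ a y, U (cp a + -y) = -U (cp a + y) := fun a y => by
    have h1 := hp_neg (a, 0)
    rw [hp_zero] at h1
    rw [← oU, neg_add, h1, SP.hp hU]
  have hU0 : ∀ a, U (cp a) = 0 := fun a => by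
    have := hU2 a 0
    rw [neg_zero, add_zero] at this
    exact self_eq_neg.1 this
  have hO : ∀ a, ∃ C : ℝ, 0 < C ∧ ∀ᶠ y in 𝓝 (0 : R4), ‖D a y‖ ≤ C * ‖y‖ := by
    intro a
    obtain ⟨C, hC0, hC⟩ := (hDd a 0 (mem_ball_self hr)).isBigO_sub.exists_pos
    refine ⟨C, hC0, ?_⟩
    filter_upwards [hC.bound] with y hy
    simpa [hD0] using hy
  choose C hC0 hC using hO
  set K := ∑ a, C a with hK
  have hCK : ∀ a, C a ≤ K := fun a =>
    Finset.single_le_sum (f := C) (fun a _ => (hC0 a).le) (Finset.mem_univ a)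
  have hK0 : 0 < K := (hC0 0).trans_le (hCK 0)
  have hev : ∀ᶠ y in 𝓝 (0 : R4), ∀ a, ‖D a y‖ ≤ C a * ‖y‖ ∧
      ‖jac U (cp a + y) - jac U (cp a)‖ < η / 3 ∧
      ‖fderiv ℝ (G a) y - fderiv ℝ (G a) 0‖ < η / 3 := by
    refine eventually_all.2 fun a => (hC a).and (Eventually.and ?_ ?_)
    · have h1 : Continuous fun y => ‖jac U (cp a + y) - jac U (cp a)‖ := by
        have := hU.fderiv.continuous
        unfold jac; fun_prop
      exact h1.continuousAt.eventually (gt_mem_nhds (by simpa using hη))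
    · have h1 : ContinuousAt (fderiv ℝ (G a)) 0 :=
        ((hGa a 0 (mem_ball_self hr)).fderiv_right (m := ∞) (by simp)).continuousAt
      have h2 : ContinuousAt (fun y => ‖fderiv ℝ (G a) y - fderiv ℝ (G a) 0‖) 0 := by fun_prop
      exact h2.eventually (gt_mem_nhds (by simpa using hη))
  obtain ⟨s, hs0, hs⟩ := Metric.eventually_nhds_iff.1 hev
  set ρ := min (min s r) (min ρ0 (1 / 8)) with hρ
  have hρp : 0 < ρ := by positivity
  have hρs : ρ ≤ s := (min_le_left _ _).trans (min_le_left _ _)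
  have hρr : ρ ≤ r := (min_le_left _ _).trans (min_le_right _ _)
  have hρ8 : ρ ≤ 1 / 8 := (min_le_right _ _).trans (min_le_right _ _)
  obtain ⟨χ, ρ', hχ⟩ := exists_cut (ρ := ρ / 2) (η := η / (3 * K)) (by positivity) (by positivity)
  set H : I16 → R4 → R4 := fun a y => χ y • D a y with hH
  have hH0 : ∀ a y, ρ / 2 ≤ ‖y‖ → H a y = 0 := fun a y hy => by simp [hH, hχ.zero y hy]
  have hHs : ∀ a, ContDiff ℝ ∞ (H a) := fun a => contDiff_iff_contDiffAt.2 fun y => by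
    by_cases hy : y ∈ ball (0 : R4) r
    · exact hχ.sm.contDiffAt.smul (hDa a y hy)
    · refine (contDiffAt_const (c := (0 : R4))).congr_of_eventuallyEq ?_
      have h1 : ρ / 2 < ‖y‖ := by
        rw [mem_ball_zero_iff, not_lt] at hy; linarith
      filter_upwards [continuous_norm.continuousAt.eventually (lt_mem_nhds h1)] with y' hy'
      exact hH0 a y' hy'.le
  have hgs : SP (gl H) := gl_sp hH0 (by linarith) hHs
  have hjac : ∀ x, jac (fun x => U x + gl H x) x = jac U x + fderiv ℝ (gl H) x := fun x => by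
    unfold jac
    rw [fderiv_fun_add (hU.differentiable x) (hgs.differentiable x), add_assoc]
  have hjU : ∀ q y, jac U (hp q + y) = jac U (cp q.1 + y) := fun q y => by
    unfold jac; rw [SP.hp hU.fderiv]
  have hgd : ∀ q y, ‖y‖ < ρ → fderiv ℝ (gl H) (hp q + y) =
      χ y • (fderiv ℝ (G q.1) y - jac U (cp q.1 + y)) + (fderiv ℝ χ y).smulRight (D q.1 y) := by
    intro q y hy
    rw [(gl_near (q := q) (by rw [add_sub_cancel_left]; linarith)).fderiv_eq, fderiv_comp_sub,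
      add_sub_cancel_left]
    exact ((hχ.sm.differentiable (by simp) y).hasFDerivAt.smul
      (hDd q.1 y (mem_ball_zero_iff.2 (by linarith)))).fderiv
  have hle := hχ.le
  refine ⟨fun x => U x + gl H x, ρ, ρ', hU.add hgs, fun x => ?_, hχ.pos, by linarith,
    (min_le_right _ _).trans (min_le_left _ _), fun x hx => ?_, fun q y hy => ⟨?_, ?_⟩,
    fun q y hy => ⟨χ y, hχ.mem y, ?_⟩, fun q y hy => ⟨χ y, hχ.mem y, ?_⟩⟩
  · rw [oU, gl_neg (fun v => -v) neg_zero ?_ x, neg_add]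
    intro a y
    by_cases hy : y ∈ ball (0 : R4) r
    · simp only [hH, hD, hχ.even, oG a y hy, hU2, hU0]; module
    · have h1 : ρ / 2 ≤ ‖y‖ := by
        rw [mem_ball_zero_iff, not_lt] at hy; linarith
      rw [hH0 a y h1, hH0 a (-y) (by rwa [norm_neg]), neg_zero]
  · have h1 := gl_far_ev hH0 (show ρ / 2 < ρ by linarith) hx
    refine ⟨by rw [h1.eq_of_nhds, add_zero], ?_⟩
    rw [hjac, h1.fderiv_eq, fderiv_fun_const, Pi.zero_apply, add_zero]
  · show y + (U (hp q + y) + gl H (hp q + y)) = _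
    rw [gl_add q (by linarith), SP.hp hU]
    simp only [hH, hD, hχ.one y hy, one_smul]; abel
  · have h1 : χ =ᶠ[𝓝 y] fun _ => 1 := by
      filter_upwards [continuous_norm.continuousAt.eventually (gt_mem_nhds hy)] with y' hy'
      exact hχ.one y' hy'
    rw [hjac, hgd q y (by linarith), hjU, h1.fderiv_eq, hχ.one y hy, fderiv_fun_const, one_smul]
    ext v i
    simp
  · show U (hp q + y) + gl H (hp q + y) = _
    rw [gl_add q (by linarith), SP.hp hU]
  · obtain ⟨h1, h2, h3⟩ := hs (y := y) (by simpa using hy.trans_le hρs) q.1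
    obtain ⟨t0, t1⟩ := hχ.mem y
    have e : jac (fun x => U x + gl H x) (hp q + y) -
        ((1 - χ y) • jac U (cp q.1) + χ y • fderiv ℝ (G q.1) 0) =
        (1 - χ y) • (jac U (cp q.1 + y) - jac U (cp q.1)) +
          χ y • (fderiv ℝ (G q.1) y - fderiv ℝ (G q.1) 0) +
          (fderiv ℝ χ y).smulRight (D q.1 y) := by
      rw [hjac, hgd q y hy, hjU]; module
    rw [e]
    have k1 : ‖(1 - χ y) • (jac U (cp q.1 + y) - jac U (cp q.1))‖ < η / 3 := by
      rw [norm_smul, Real.norm_of_nonneg (by linarith)]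
      nlinarith [norm_nonneg (jac U (cp q.1 + y) - jac U (cp q.1))]
    have k2 : ‖χ y • (fderiv ℝ (G q.1) y - fderiv ℝ (G q.1) 0)‖ < η / 3 := by
      rw [norm_smul, Real.norm_of_nonneg t0]
      nlinarith [norm_nonneg (fderiv ℝ (G q.1) y - fderiv ℝ (G q.1) 0)]
    have k3 : ‖(fderiv ℝ χ y).smulRight (D q.1 y)‖ ≤ η / 3 := by
      rw [ContinuousLinearMap.norm_smulRight_apply]
      calc _ ≤ ‖fderiv ℝ χ y‖ * (K * ‖y‖) := by
            gcongr
            exact h1.trans (by gcongr; exact hCK _)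
        _ = K * (‖fderiv ℝ χ y‖ * ‖y‖) := by ring
        _ ≤ K * (η / (3 * K)) := by gcongr; exact hχ.slow y
        _ = η / 3 := by field_simp
    linarith [norm_add₃_le (a := (1 - χ y) • (jac U (cp q.1 + y) - jac U (cp q.1)))
      (b := χ y • (fderiv ℝ (G q.1) y - fderiv ℝ (G q.1) 0))
      (c := (fderiv ℝ χ y).smulRight (D q.1 y))]

end Vale.Agent.P247T
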