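import Vale.Agent.P247T.Seg

/-!
# P247T: the Kummer presentation
-/

set_option linter.all false

open scoped BigOperators ContDiff Topology Manifold
open Set Filter Metric

namespace Vale.Agent.P247T

open Vale.Agent.P247 Vale.Agent.P204.T4 Vale.Agent.P204.Mfd
open Vale.Agent.P247X (Hf KP Std Nr B2 om0)
open Vale.Agent.P247.SCY (ax bx cx)

theorem isOpen_Nr (r : ℝ) : IsOpen (Nr r) := isOpen_lt (by fun_prop) continuous_const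

theorem isOpen_B2 (r : ℝ) : IsOpen (B2 r) := isOpen_lt (by fun_prop) continuous_const

theorem zero_Nr {r : ℝ} (hr : 0 < r) (ζ : ℂ) : ((0, ζ) : ℂ × ℂ) ∈ Nr r := by
  simpa [Nr] using hr

theorem zero_B2 {r : ℝ} (hr : 0 < r) : (0 : ℂ × ℂ) ∈ B2 r := by
  simpa [B2] using hr

theorem B2_p {r : ℝ} {u ζ : ℂ} : ((u, u * ζ) : ℂ × ℂ) ∈ B2 r ↔ ((u ^ 2, ζ) : ℂ × ℂ) ∈ Nr r := by
  simp only [B2, Nr, mem_setOf_eq, norm_mul, norm_pow]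
  rw [show ‖u‖ ^ 2 + (‖u‖ * ‖ζ‖) ^ 2 = ‖u‖ ^ 2 * (1 + ‖ζ‖ ^ 2) by ring]

theorem B2_q {r : ℝ} {u ζ : ℂ} : ((u * ζ, u) : ℂ × ℂ) ∈ B2 r ↔ ((u ^ 2, ζ) : ℂ × ℂ) ∈ Nr r := by
  simp only [B2, Nr, mem_setOf_eq, norm_mul, norm_pow]
  rw [show (‖u‖ * ‖ζ‖) ^ 2 + ‖u‖ ^ 2 = ‖u‖ ^ 2 * (1 + ‖ζ‖ ^ 2) by ring]

theorem B2_mono {r r' : ℝ} (h : r ≤ r') : B2 r ⊆ B2 r' := fun _ hz => lt_of_lt_of_le hz h

theorem cp_mem (a : I16) : cp a ∈ Hf := mem_Hf.2 ⟨(a, 0), (hp_zero a).symm⟩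

variable {X : Type} [TopologicalSpace X] [ChartedSpace E4 X] [IsManifold (𝓡 4) ∞ X]
  {w : Fin 3 → SCY.HS.Form X 2}

theorem q_mem (S : Std w) (ζ : ℂ) : S.q (0, ζ) ∈ S.set := by
  by_cases h : ζ = 0
  · rw [h]; exact mem_insert _ _
  · have := S.glue (0, ζ⁻¹) (zero_Nr S.r_pos _) (inv_ne_zero h)
    simp only [zero_mul, inv_inv] at this
    exact mem_insert_of_mem _ ⟨ζ⁻¹, this.symm⟩

theorem set_nb (S : Std w) : S.set ⊆ S.nb := by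
  rintro z (rfl | ⟨ζ, rfl⟩)
  · exact Or.inr ⟨_, zero_Nr S.r_pos _, rfl⟩
  · exact Or.inl ⟨_, zero_Nr S.r_pos _, rfl⟩

theorem θ0 (K : KP w) (a : I16) : K.θ a 0 = cp a := funext (K.θ_zero a)

/-- the two charts of the resolution are treated together -/
theorem chart_near (K : KP w) (a : I16) {p : ℂ × ℂ → X} {m : ℂ → ℂ → ℂ × ℂ}
    (hs : ContMDiffOn 𝓘(ℝ, ℂ × ℂ) (𝓡 4) ∞ p (Nr (K.St a).r))
    (hb : ∀ z ∈ Nr (K.St a).r, Function.Bijective (DP p z)) (h0 : ∀ ζ, p (0, ζ) ∈ (K.St a).set)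
    (hm : ∀ r u ζ, m u ζ ∈ B2 r ↔ ((u ^ 2, ζ) : ℂ × ℂ) ∈ Nr r) (hm0 : ∀ u ζ, u ≠ 0 → m u ζ ≠ 0)
    (hθ : ∀ u ζ, u ≠ 0 → m u ζ ∈ B2 K.ρ → K.P (K.θ a (m u ζ)) = p (u ^ 2, ζ)) (ζ : ℂ) :
    (∀ r > (0 : ℝ), ∀ᶠ z' in 𝓝 (p (0, ζ)),
      z' ∈ (K.St a).set ∨ ∃ y, y ≠ 0 ∧ ‖y‖ < r ∧ z' = K.P (cp a + y)) ∧
    p (0, ζ) ∈ closure (K.P '' Hfᶜ) := by
  have hz := zero_Nr (K.St a).r_pos ζ
  constructor
  · intro r hr
    have c1 : ContinuousAt (K.θ a) 0 :=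
      ((K.θ_smooth a).contDiffAt ((isOpen_B2 _).mem_nhds (zero_B2 K.ρ_pos))).continuousAt
    have c2 : ∀ᶠ z in 𝓝 (0 : ℂ × ℂ), ‖K.θ a z - cp a‖ < r :=
      (c1.sub continuousAt_const).norm.eventually (gt_mem_nhds (by simpa [θ0] using hr))
    obtain ⟨δ, hδ0, hδ⟩ := Metric.eventually_nhds_iff.1 c2
    have hρ := K.ρ_pos
    filter_upwards [map_nhds_of (isOpen_Nr _) hs hb hz ((isOpen_Nr (min K.ρ (δ ^ 2))).mem_nhds
      (zero_Nr (by positivity) ζ))] with z' hz'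
    obtain ⟨⟨t, ζ'⟩, h1, rfl⟩ := hz'
    by_cases ht : t = 0
    · rw [ht]; exact Or.inl (h0 _)
    · obtain ⟨u, rfl⟩ := IsAlgClosed.exists_pow_nat_eq t (n := 2) two_pos
      have hu : u ≠ 0 := fun h => ht (by simp [h])
      have h2 := (hm _ _ _).2 h1
      have h3 := B2_mono (min_le_left _ _) h2
      have h4 : ‖(m u ζ').1‖ ^ 2 + ‖(m u ζ').2‖ ^ 2 < δ ^ 2 := B2_mono (min_le_right _ _) h2
      refine Or.inr ⟨K.θ a (m u ζ') - cp a, fun h5 => K.θ_off a _ h3 (hm0 _ _ hu) ?_, hδ ?_, ?_⟩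
      · rw [sub_eq_zero.1 h5]; exact cp_mem a
      · rw [dist_zero_right, Prod.norm_def, max_lt_iff]
        constructor
        · exact lt_of_pow_lt_pow_left₀ 2 hδ0.le (by nlinarith [sq_nonneg ‖(m u ζ').2‖])
        · exact lt_of_pow_lt_pow_left₀ 2 hδ0.le (by nlinarith [sq_nonneg ‖(m u ζ').1‖])
      · rw [add_sub_cancel, hθ _ _ hu h3]
  · have c1 : Tendsto (fun u : ℂ => ((u ^ 2, ζ) : ℂ × ℂ)) (𝓝[≠] 0) (𝓝 (0, ζ)) := by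
      have : Continuous fun u : ℂ => ((u ^ 2, ζ) : ℂ × ℂ) := by fun_prop
      simpa using (this.tendsto 0).mono_left (nhdsWithin_le_nhds (s := {0}ᶜ))
    refine mem_closure_of_tendsto
      ((hs.continuousOn.continuousAt ((isOpen_Nr _).mem_nhds hz)).tendsto.comp c1) ?_
    filter_upwards [c1.eventually ((isOpen_Nr K.ρ).mem_nhds (zero_Nr K.ρ_pos ζ)),
      self_mem_nhdsWithin] with u h1 hu
    have h2 := (hm _ _ _).2 h1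
    exact ⟨_, K.θ_off a _ h2 (hm0 _ _ hu), hθ _ _ hu h2⟩

theorem set_near (K : KP w) (a : I16) (z : X) (hz : z ∈ (K.St a).set) :
    (∀ r > (0 : ℝ), ∀ᶠ z' in 𝓝 z,
      z' ∈ (K.St a).set ∨ ∃ y, y ≠ 0 ∧ ‖y‖ < r ∧ z' = K.P (cp a + y)) ∧
    z ∈ closure (K.P '' Hfᶜ) := by
  rcases hz with rfl | ⟨ζ, rfl⟩
  · exact chart_near K a (m := fun u ζ => (u * ζ, u)) (K.St a).q_smooth (K.St a).q_imm
      (q_mem _) (fun _ _ _ => B2_q) (fun u ζ hu h => hu (congrArg Prod.snd h)) (K.θ_q a) 0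
  · exact chart_near K a (m := fun u ζ => (u, u * ζ)) (K.St a).p_smooth (K.St a).p_imm
      (fun ζ => mem_insert_of_mem _ ⟨ζ, rfl⟩) (fun _ _ _ => B2_p)
      (fun u ζ hu h => hu (congrArg Prod.fst h)) (K.θ_p a) ζ

theorem pres (K : KP w) : Pres K.P fun a => (K.St a).set where
  sm := K.smooth
  imm := K.imm
  per := K.per
  even := K.even
  inj := K.inj
  surj z := by
    by_cases h : ∀ a, z ∉ (K.St a).set
    · exact Or.inl (K.surj z h)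
    · push Not at h; exact Or.inr h
  off := K.off
  disj a b z ha hb := by
    by_contra h
    exact Set.disjoint_left.1 (K.disj a b h) (set_nb _ ha) (set_nb _ hb)
  near a z hz := (set_near K a z hz).1
  dense z := by
    by_cases h : ∀ a, z ∉ (K.St a).set
    · obtain ⟨x, hx, rfl⟩ := K.surj z h
      exact subset_closure ⟨x, hx, rfl⟩
    · push Not at h
      obtain ⟨a, ha⟩ := h
      exact (set_near K a z ha).2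

/-- `dz₁ ∧ dz₂` -/
def om1 (a b : ℂ × ℂ) : ℂ := a.1 * b.2 - a.2 * b.1

theorem sig_p {z : ℂ × ℂ} (hz : z.1 ≠ 0) : ∃ L : ℂ × ℂ →L[ℝ] ℂ × ℂ,
    HasFDerivAt (fun z : ℂ × ℂ => (z.1 ^ 2, z.2 * z.1⁻¹)) L z ∧
      ∀ a b, om0 (L a) (L b) = om1 a b := by
  have h1 : HasFDerivAt (𝕜 := ℂ) (fun z : ℂ × ℂ => z.1) _ z := hasFDerivAt_fst
  have h2 : HasFDerivAt (𝕜 := ℂ) (fun z : ℂ × ℂ => z.2) _ z := hasFDerivAt_snd
  refine ⟨_, ((h1.pow 2).prodMk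
    (h2.mul ((hasDerivAt_inv hz).comp_hasFDerivAt z h1))).restrictScalars ℝ, fun a b => ?_⟩
  simp [om0, om1]
  field_simp
  ring

theorem sig_q {z : ℂ × ℂ} (hz : z.2 ≠ 0) : ∃ L : ℂ × ℂ →L[ℝ] ℂ × ℂ,
    HasFDerivAt (fun z : ℂ × ℂ => (z.2 ^ 2, z.1 * z.2⁻¹)) L z ∧
      ∀ a b, om0 (L a) (L b) = -om1 a b := by
  have h1 : HasFDerivAt (𝕜 := ℂ) (fun z : ℂ × ℂ => z.1) _ z := hasFDerivAt_fst
  have h2 : HasFDerivAt (𝕜 := ℂ) (fun z : ℂ × ℂ => z.2) _ z := hasFDerivAt_snd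
  refine ⟨_, ((h2.pow 2).prodMk
    (h1.mul ((hasDerivAt_inv hz).comp_hasFDerivAt z h2))).restrictScalars ℝ, fun a b => ?_⟩
  simp [om0, om1]
  field_simp
  ring

theorem pb_chart (K : KP w) (a : I16) {z : ℂ × ℂ} (hz : z ∈ B2 K.ρ) (h0 : z ≠ 0)
    {p : ℂ × ℂ → X} (hs : ContMDiffOn 𝓘(ℝ, ℂ × ℂ) (𝓡 4) ∞ p (Nr (K.St a).r))
    {σ : ℂ × ℂ → ℂ × ℂ} {L : ℂ × ℂ →L[ℝ] ℂ × ℂ} (hL : HasFDerivAt σ L z)
    (hσ : σ z ∈ Nr (K.St a).r) (he : K.P ∘ K.θ a =ᶠ[𝓝 z] p ∘ σ) (β : SCY.HS.Form X 2)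
    (v v' : ℂ × ℂ) : pb K.P β (K.θ a z) ![fderiv ℝ (K.θ a) z v, fderiv ℝ (K.θ a) z v'] =
      bx β (p (σ z)) ![DP p (σ z) (L v), DP p (σ z) (L v')] := by
  have h1 := DP_comp ((pres K).mdiff (K.θ_off a z hz h0))
    (((K.θ_smooth a).contDiffAt ((isOpen_B2 _).mem_nhds hz)).differentiableAt
      (by simp)).hasFDerivAt
  have h2 := DP_comp (mdiff_of (isOpen_Nr _) hs hσ) hL
  rw [DP_congr he, h2] at h1
  have h3 : ∀ v, DP K.P (K.θ a z) (fderiv ℝ (K.θ a) z v) = DP p (σ z) (L v) := fun v =>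
    (congrArg (fun M : ℂ × ℂ →L[ℝ] E4 => M v) h1).symm
  rw [pb, comp_apply2, h3, h3, show K.P (K.θ a z) = p (σ z) from he.eq_of_nhds]

theorem pb_theta (K : KP w) (a : I16) {z : ℂ × ℂ} (hz : z ∈ B2 K.ρ) (h0 : z ≠ 0)
    (v v' : ℂ × ℂ) :
    pb K.P (w 0) (K.θ a z) ![fderiv ℝ (K.θ a) z v, fderiv ℝ (K.θ a) z v'] = (om1 v v').re ∧
    pb K.P (w 1) (K.θ a z) ![fderiv ℝ (K.θ a) z v, fderiv ℝ (K.θ a) z v'] =
      (K.St a).s * (om1 v v').im := by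
  have hB := (isOpen_B2 _).mem_nhds hz
  by_cases h1 : z.1 = 0
  · have h2 : z.2 ≠ 0 := fun h2 => h0 (Prod.ext h1 h2)
    obtain ⟨L, hL, hL'⟩ := sig_q h2
    have e : ∀ z : ℂ × ℂ, z.2 ≠ 0 → (z.2 * (z.1 * z.2⁻¹), z.2) = z := fun z hz =>
      Prod.ext (by simp only; field_simp) rfl
    have hσ : ((z.2 ^ 2, z.1 * z.2⁻¹) : ℂ × ℂ) ∈ Nr (K.St a).r :=
      B2_q.1 (by rw [e z h2]; exact B2_mono (K.ρ_le a) hz)
    have he : K.P ∘ K.θ a =ᶠ[𝓝 z] (K.St a).q ∘ fun z : ℂ × ℂ => (z.2 ^ 2, z.1 * z.2⁻¹) := by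
      filter_upwards [hB, continuous_snd.continuousAt.eventually_ne h2] with y hy hy'
      have := K.θ_q a y.2 (y.1 * y.2⁻¹) hy' (by rw [e y hy']; exact hy)
      rwa [e y hy'] at this
    rw [pb_chart K a hz h0 (K.St a).q_smooth hL hσ he, pb_chart K a hz h0 (K.St a).q_smooth hL hσ he]
    refine ⟨((K.St a).q0 _ hσ _ _).trans ?_, ((K.St a).q1 _ hσ _ _).trans ?_⟩
    · rw [hL']; simp
    · rw [hL']; simp
  · obtain ⟨L, hL, hL'⟩ := sig_p h1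
    have e : ∀ z : ℂ × ℂ, z.1 ≠ 0 → (z.1, z.1 * (z.2 * z.1⁻¹)) = z := fun z hz =>
      Prod.ext rfl (by simp only; field_simp)
    have hσ : ((z.1 ^ 2, z.2 * z.1⁻¹) : ℂ × ℂ) ∈ Nr (K.St a).r :=
      B2_p.1 (by rw [e z h1]; exact B2_mono (K.ρ_le a) hz)
    have he : K.P ∘ K.θ a =ᶠ[𝓝 z] (K.St a).p ∘ fun z : ℂ × ℂ => (z.1 ^ 2, z.2 * z.1⁻¹) := by
      filter_upwards [hB, continuous_fst.continuousAt.eventually_ne h1] with y hy hy'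
      have := K.θ_p a y.1 (y.2 * y.1⁻¹) hy' (by rw [e y hy']; exact hy)
      rwa [e y hy'] at this
    rw [pb_chart K a hz h0 (K.St a).p_smooth hL hσ he, pb_chart K a hz h0 (K.St a).p_smooth hL hσ he]
    refine ⟨((K.St a).p0 _ hσ _ _).trans ?_, ((K.St a).p1 _ hσ _ _).trans ?_⟩
    · rw [hL']
    · rw [hL']

end Vale.Agent.P247T
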