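import Vale.Agent.P247T.Pair

/-!
# P247T: the two segments on `ℝ⁴`
-/

set_option linter.all false

open scoped BigOperators ContDiff Topology
open Set Filter Metric

namespace Vale.Agent.P247T

open Vale.Agent.P247 Vale.Agent.P204.T4 Vale.Agent.P204.Mfd
open Vale.Agent.P247X (Hf)

/-- a semi-taming form, constant far from the half lattice, in the span of the pair near it -/
structure Third (u v g : Form 2) (f : Form2) (ρ0 : ℝ) (σ : Form 2) (ρ : ℝ) (c d : I16 → ℝ) :
    Prop where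
  spc : SPC σ
  even : ∀ x, σ (-x) = σ x
  pos : 0 < ρ
  le : ρ ≤ ρ0
  semi : ∀ x ∉ Hf, Sm (coord (u x)) (coord (v x)) (coord (g x)) (coord (σ x))
  near : ∀ q z, ‖z‖ < ρ → σ (hp q + z) = c q.1 • u (hp q + z) + d q.1 • v (hp q + z)
  far : ∀ x, (∀ q, ρ0 ≤ ‖x - hp q‖) → σ x = f

theorem jac_zero (x : R4) : jac (fun _ => 0) x = ContinuousLinearMap.id ℝ R4 := by
  simp [jac]

theorem exists_third {u v g : Form 2} {φ : I16 → R4 → R4} {r : ℝ} (h : Flat u v g φ r)
    {f : Form2} (f5 : 0 < coord f 5) (hf : ∀ x, Def3c (coord (u x)) (coord (v x)) (coord f))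
    {ρ0 : ℝ} (hρ0 : 0 < ρ0) (hρ8 : ρ0 ≤ 1 / 8) : ∃ σ ρ c d, Third u v g f ρ0 σ ρ c d := by
  have hr := h.r_pos
  have hev : ∀ᶠ E : R4 →L[ℝ] R4 in 𝓝 0, ∀ x ∈ Icc (0 : R4) 1,
      Def3c (coord (u x)) (coord (v x))
        (coord (f.compContinuousLinearMap (ContinuousLinearMap.id ℝ R4 + E))) ∧
      0 < coord (f.compContinuousLinearMap (ContinuousLinearMap.id ℝ R4 + E)) 5 := by
    refine isCompact_Icc.eventually_forall_of_forall_eventually fun x _ => ?_
    have c1 : Continuous fun z : (R4 →L[ℝ] R4) × R4 =>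
        coord (f.compContinuousLinearMap (ContinuousLinearMap.id ℝ R4 + z.1)) :=
      cont_coord_comp continuous_const (by fun_prop)
    refine (d3_eventually (cont_coord (h.su.1.continuous.comp continuous_snd)).continuousAt
      (cont_coord (h.sv.1.continuous.comp continuous_snd)).continuousAt c1.continuousAt ?_).and
      (((continuous_apply 5).comp c1).continuousAt.eventually (lt_mem_nhds ?_))
    · simp only [add_zero, comp_id]; exact hf x
    · simp only [Function.comp_apply, add_zero, comp_id]; exact f5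
  obtain ⟨η, hη0, hη⟩ := Metric.eventually_nhds_iff.1 hev
  have hφ0 : ∀ a, φ a 0 = 0 := fun a => by
    have := h.oφ a 0 (mem_ball_self hr)
    rw [neg_zero] at this
    exact self_eq_neg.1 this
  have hev2 : ∀ᶠ y in 𝓝 (0 : R4), ∀ a, ‖φ a y - y‖ ≤ 1 / 2 * ‖y‖ := by
    refine eventually_all.2 fun a => ?_
    have h1 := (((h.sφ a).contDiffAt (ball_mem_nhds 0 hr)).differentiableAt (by simp)).hasFDerivAt
    rw [h.dφ] at h1
    filter_upwards [h1.isLittleO.def (show (0 : ℝ) < 1 / 2 by norm_num)] with y hy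
    simpa [hφ0] using hy
  obtain ⟨s, hs0, hs⟩ := Metric.eventually_nhds_iff.1 hev2
  obtain ⟨W, ρ, ρ', hP⟩ := exists_patch (SP.const (0 : R4)) (fun _ => neg_zero.symm) hr h.sφ h.oφ
    hη0 (ρ0 := min ρ0 (min s r)) (by positivity)
  have l1 : ρ ≤ ρ0 := hP.le0.trans (min_le_left _ _)
  have l2 : ρ ≤ s := hP.le0.trans ((min_le_right _ _).trans (min_le_left _ _))
  have l3 : ρ ≤ r := hP.le0.trans ((min_le_right _ _).trans (min_le_right _ _))
  have l4 := hP.le
  have l5 := hP.pos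
  have hs' : ∀ a y, ‖y‖ < ρ → ‖φ a y - y‖ ≤ 1 / 2 * ‖y‖ := fun a y hy =>
    hs (by simpa using hy.trans_le l2) a
  have hJ : ∀ x, Def3c (coord (u x)) (coord (v x)) (coord (f.compContinuousLinearMap (jac W x))) ∧
      0 < coord (f.compContinuousLinearMap (jac W x)) 5 := by
    intro x
    obtain ⟨n, hn⟩ := exists_cube x
    have h1 : ‖jac W x - ContinuousLinearMap.id ℝ R4‖ < η := by
      by_cases hx : ∀ q, ρ ≤ ‖x - hp q‖
      · rw [(hP.far x hx).2, jac_zero, sub_self, norm_zero]; exact hη0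
      · push Not at hx
        obtain ⟨q, hq⟩ := hx
        obtain ⟨t, ht, hE⟩ := hP.mid q _ hq
        rwa [jac_zero, h.dφ, ← add_smul, sub_add_cancel, one_smul, add_sub_cancel] at hE
    have := hη (y := jac W x - ContinuousLinearMap.id ℝ R4) (by rwa [dist_zero_right]) _ hn
    rwa [add_sub_cancel, h.su.1.per, h.sv.1.per] at this
  choose E c d ρ3 hE using fun a => exists_semi (hf (cp a)) (ρ := ρ' / 2) (by positivity)
  obtain ⟨a0, ha0⟩ := Finite.exists_min ρ3
  have hgl : SPC (gl E) := gl_spc (fun a => (hE a).zero) (by linarith) (fun a => (hE a).sm)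
    fun a => (hE a).closed
  have hnear : ∀ q y, ‖y‖ < ρ' → ‖φ q.1 y‖ ≤ 3 / 2 * ‖y‖ ∧
      u (hp q + y) = (u (cp q.1)).compContinuousLinearMap (jac W (hp q + y)) ∧
      v (hp q + y) = (v (cp q.1)).compContinuousLinearMap (jac W (hp q + y)) ∧
      gl E (hp q + y + W (hp q + y)) = E q.1 (φ q.1 y) := by
    intro q y hy
    have h1 := hs' q.1 y (hy.trans_le l4)
    have h2 : ‖φ q.1 y‖ ≤ 3 / 2 * ‖y‖ := by
      have := norm_le_norm_add_norm_sub' (φ q.1 y) y
      linarith
    have h3 : y ∈ ball (0 : R4) r := mem_ball_zero_iff.2 (by linarith)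
    refine ⟨h2, ?_, ?_, ?_⟩
    · rw [(hP.near q y hy).2, SP.hp h.su.1, h.lu _ _ h3]
    · rw [(hP.near q y hy).2, SP.hp h.sv.1, h.lv _ _ h3]
    · rw [add_assoc, (hP.near q y hy).1, zero_add, gl_add q (by linarith)]
  have hfar : ∀ x, (∀ q, ρ' ≤ ‖x - hp q‖) → gl E (x + W x) = 0 := by
    intro x hx
    by_cases hx' : ∀ q, ρ ≤ ‖x - hp q‖
    · rw [(hP.far x hx').1, add_zero]
      exact gl_far (fun a => (hE a).zero) fun q => by linarith [hx q]
    · push Not at hx'
      obtain ⟨q, hq⟩ := hx'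
      obtain ⟨t, ht, hV⟩ := hP.val q _ hq
      have h1 := hs' q.1 _ hq
      have h2 : ‖t • (φ q.1 (x - hp q) - (x - hp q))‖ ≤ 1 / 2 * ‖x - hp q‖ := by
        rw [norm_smul, Real.norm_of_nonneg ht.1]
        nlinarith [norm_nonneg (φ q.1 (x - hp q) - (x - hp q)), ht.2]
      rw [add_sub_cancel, zero_add, sub_zero, add_zero] at hV
      have e : x + W x = hp q + (x - hp q + t • (φ q.1 (x - hp q) - (x - hp q))) := by
        rw [hV]; abel
      have h3 := norm_add_le (x - hp q) (t • (φ q.1 (x - hp q) - (x - hp q)))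
      have h4 := norm_le_add_norm_add (x - hp q) (t • (φ q.1 (x - hp q) - (x - hp q)))
      rw [e, gl_add q (by linarith)]
      exact (hE q.1).zero _ (by linarith [hx q])
  have hρ3 := (hE a0).pos
  refine ⟨fun x => (f + gl E (x + W x)).compContinuousLinearMap (jac W x), min ρ' (ρ3 a0 / 2), c, d,
    spc_jac hP.sp ((SPC.const f).add hgl), fun x => ?_, by positivity,
    (min_le_left _ _).trans (l4.trans l1), fun x hx => ?_, fun q z hz => ?_, fun x hx => ?_⟩
  · rw [jac_even hP.sp hP.odd, hP.odd, ← neg_add,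
      gl_neg (fun v => v) rfl (fun a => (hE a).even)]
  · have ht := tam_eq_of_five (h.u5 x) (h.v5 x) (hJ x).1 (h.d3 x hx) (hJ x).2 (h.g5 x hx)
    unfold Sm
    rw [ht]
    by_cases hx' : ∀ q, ρ' ≤ ‖x - hp q‖
    · simp only [hfar x hx', add_zero]
      exact sm_self (hJ x).1
    · push Not at hx'
      obtain ⟨q, hq⟩ := hx'
      obtain ⟨-, k1, k2, k3⟩ := hnear q _ hq
      rw [add_sub_cancel] at k1 k2 k3
      have hdet : (jac W x).det ≠ 0 := by
        intro h0
        have h1 : 0 < wedge (u x) (u x) := (h.pp x).pos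
        rw [k1, wedge_pullback, h0, zero_mul] at h1
        exact lt_irrefl _ h1
      have := Sm.pull (hf (cp q.1)) ((hE q.1).semi (φ q.1 (x - hp q))) hdet
      simp only [← coord_comp] at this
      simp only [k3]
      rw [k1, k2]
      exact this
  · obtain ⟨k0, k1, k2, k3⟩ := hnear q z (hz.trans_le (min_le_left _ _))
    have h1 : ‖z‖ < ρ3 a0 / 2 := hz.trans_le (min_le_right _ _)
    simp only [k3]
    rw [(hE q.1).span _ (by linarith [ha0 q.1, norm_nonneg z]), k1, k2, add_comp, smul_comp,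
      smul_comp]
  · have hx' : ∀ q, ρ ≤ ‖x - hp q‖ := fun q => l1.trans (hx q)
    simp only [hfar x fun q => l4.trans (hx' q), add_zero]
    rw [(hP.far x hx').2, jac_zero, comp_id]

/-- the result on `ℝ⁴` -/
structure Out (u v g u' v' σ : Form 2) (ε ρ : ℝ) (κ0 κ1 : Form2) (δ : R4 → ℝ)
    (μ k y c d : I16 → ℝ) : Prop where
  s0 : SPC u'
  s1 : SPC v'
  s2 : SPC σ
  e0 : ∀ x, u' (-x) = u' x
  e1 : ∀ x, v' (-x) = v' x
  e2 : ∀ x, σ (-x) = σ x
  ε_pos : 0 < ε
  ρ_pos : 0 < ρ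
  μ_pos : ∀ a, 0 < μ a
  y_pos : ∀ a, 0 < y a
  κ_pos : 0 < wedge κ0 κ0
  w00 : ∀ x, wedge (u' x) (u' x) = δ x * wedge κ0 κ0
  w01 : ∀ x, wedge (u' x) (v' x) = δ x * wedge κ0 κ1
  w11 : ∀ x, wedge (v' x) (v' x) = δ x * wedge κ1 κ1
  n0 : ∀ q z, ‖z‖ < ρ → u' (hp q + z) = μ q.1 • u (hp q + z)
  n1 : ∀ q z, ‖z‖ < ρ → v' (hp q + z) = k q.1 • u (hp q + z) + y q.1 • v (hp q + z)
  n2 : ∀ q z, ‖z‖ < ρ → σ (hp q + z) = c q.1 • u (hp q + z) + d q.1 • v (hp q + z)
  seg1 : ∀ x ∉ Hf, ∀ s ∈ Icc (0 : ℝ) 1, Def3c (coord (u x)) (coord (v x))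
    ((1 - s) • coord (g x) + s • coord (σ x + ε • g x))
  seg2 : ∀ x ∉ Hf, ∀ s ∈ Icc (0 : ℝ) 1, Def3c ((1 - s) • coord (u x) + s • coord (u' x))
    ((1 - s) • coord (v x) + s • coord (v' x)) (coord (σ x + ε • g x))

theorem exists_out {u v g : Form 2} {φ : I16 → R4 → R4} {r : ℝ} (h : Flat u v g φ r) :
    ∃ u' v' σ ε ρ κ0 κ1 δ μ k y c d, Out u v g u' v' σ ε ρ κ0 κ1 δ μ k y c d := by
  obtain ⟨U, κ0, κ1, f, F⟩ := exists_fr h.su h.sv h.eu h.u5 h.v5 h.pp
  obtain ⟨V, ρ, μ, k, y, hV⟩ := exists_fin2 h F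
  obtain ⟨σ, ρ', c, d, hσ⟩ := exists_third h F.f5
    (fun x => by simpa using F.d3 x 0 ⟨le_rfl, zero_le_one⟩) hV.pos hV.le
  have s0 := spc_jac hV.sp (SPC.const κ0)
  have s1 := spc_jac hV.sp (SPC.const κ1)
  set K : Set R4 := Icc 0 1 ∩ {x | ∀ q, ρ ≤ ‖x - hp q‖} with hK
  have hKc : IsCompact K := by
    refine isCompact_Icc.inter_right ?_
    rw [setOf_forall]
    exact isClosed_iInter fun q => isClosed_le continuous_const (by fun_prop)
  have hoff : ∀ x, (∀ q, ρ ≤ ‖x - hp q‖) → x ∉ Hf := fun x hx hx' => by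
    obtain ⟨q, rfl⟩ := mem_Hf.1 hx'
    have := hx q
    rw [sub_self, norm_zero] at this
    linarith [hV.pos]
  have hev : ∀ᶠ ε : ℝ in 𝓝 0, ∀ p ∈ K ×ˢ Icc (0 : ℝ) 1, Def3c
      ((1 - p.2) • coord (u p.1) + p.2 • coord (κ0.compContinuousLinearMap (jac V p.1)))
      ((1 - p.2) • coord (v p.1) + p.2 • coord (κ1.compContinuousLinearMap (jac V p.1)))
      (coord f + ε • coord (g p.1)) := by
    refine (hKc.prod isCompact_Icc).eventually_forall_of_forall_eventually fun p hp => ?_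
    have c1 : Continuous fun z : ℝ × R4 × ℝ => z.2.1 := by fun_prop
    have c2 : Continuous fun z : ℝ × R4 × ℝ => z.2.2 := by fun_prop
    have c3 : ContinuousAt (fun z : ℝ × R4 × ℝ => coord (g z.2.1)) (0, p) := by
      simp only [← coordL_apply]
      exact coordL.continuous.continuousAt.comp (ContinuousAt.comp (g := g)
        (h.cg.continuousAt (isOpen_Hfc.mem_nhds (hoff _ hp.1.2))) c1.continuousAt)
    refine d3_eventually
      (((continuous_const.sub c2).smul (cont_coord (h.su.1.continuous.comp c1))).add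
        (c2.smul (cont_coord (s0.1.continuous.comp c1)))).continuousAt
      (((continuous_const.sub c2).smul (cont_coord (h.sv.1.continuous.comp c1))).add
        (c2.smul (cont_coord (s1.1.continuous.comp c1)))).continuousAt
      (continuousAt_const.add (continuousAt_fst.smul c3)) ?_
    simp only [zero_smul, add_zero]
    exact hV.d3 p.1 p.2 hp.2
  obtain ⟨ε, hε, hε0⟩ := ((hev.filter_mono (nhdsWithin_le_nhds (s := Ioi 0))).and
    self_mem_nhdsWithin).exists
  have hε0 : 0 < ε := hε0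
  have base : ∀ x ∉ Hf, ∀ s ∈ Icc (0 : ℝ) 1, Def3c (coord (u x)) (coord (v x))
      ((1 - s) • coord (g x) + s • coord (σ x + ε • g x)) := by
    intro x hx s hs
    have := d3_semi (h.d3 x hx) (hσ.semi x hx) hs.1 (r := 1 - s + s * ε) (by
      rcases eq_or_lt_of_le hs.1 with h0 | h0
      · rw [← h0]; norm_num
      · have := mul_pos h0 hε0; linarith [hs.2])
    rw [coord_add, coord_smul]
    convert this using 1
    module
  refine ⟨_, _, σ, ε, ρ', κ0, κ1, fun x => (jac V x).det, μ, k, y, c, d, s0, s1, hσ.spc,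
    fun x => by simp only [jac_even hV.sp hV.odd], fun x => by simp only [jac_even hV.sp hV.odd],
    hσ.even, hε0, hσ.pos, hV.μ_pos, hV.y_pos, F.pos, fun x => wedge_pullback _ _ _,
    fun x => wedge_pullback _ _ _, fun x => wedge_pullback _ _ _,
    fun q z hz => (hV.near q z (hz.trans_le hσ.le)).1,
    fun q z hz => (hV.near q z (hz.trans_le hσ.le)).2, hσ.near, base, fun x hx s hs => ?_⟩
  by_cases hx' : ∀ q, ρ ≤ ‖x - hp q‖
  · obtain ⟨n, hn⟩ := exists_cube x
    have := hε (x + iv n, s) ⟨⟨hn, fun q => by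
      have e : x + iv n - hp q = x - hp (q.1, q.2 + -n) := by rw [← hp_add, iv_neg]; abel
      rw [e]; exact hx' _⟩, hs⟩
    simp only [h.su.1.per, h.sv.1.per, jac_per hV.sp, h.pg x hx] at this
    rw [hσ.far x hx', coord_add, coord_smul]
    exact this
  · push Not at hx'
    obtain ⟨q, hq⟩ := hx'
    obtain ⟨k0, k1⟩ := hV.near q _ hq
    rw [add_sub_cancel] at k0 k1
    have h1 := base x hx 1 ⟨zero_le_one, le_rfl⟩
    rw [sub_self, zero_smul, zero_add, one_smul] at h1
    have p : ∀ m : ℝ, 0 < m → 1 - s + s * m ≠ 0 := fun m hm => by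
      rcases eq_or_lt_of_le hs.1 with h0 | h0
      · rw [← h0]; norm_num
      · have := mul_pos h0 hm; linarith [hs.2]
    have := d3_tri h1 (x := 1 - s + s * μ q.1) (k := s * k q.1) (y := 1 - s + s * y q.1) (c := 0)
      (d := 0) (r := 1) (p _ (hV.μ_pos _)) (p _ (hV.y_pos _)) one_ne_zero
    simp only [k0, k1, coord_add (k q.1 • u x), coord_smul]
    convert this using 1 <;> module

end Vale.Agent.P247T
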