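import Vale.Agent.P247T.Glue
import Vale.Agent.P247T.Cof

/-!
# P247T: the integrable pair on the torus
-/

set_option linter.all false

open scoped BigOperators ContDiff Topology
open Set Filter Metric

namespace Vale.Agent.P247T

open Vale.Agent.P247 Vale.Agent.P204.T4 Vale.Agent.P204.Mfd
open Vale.Agent.P247X (Hf)

theorem cont_coord_comp {Y : Type*} [TopologicalSpace Y] {α : Y → Form2} {L : Y → R4 →L[ℝ] R4}
    (hα : Continuous α) (hL : Continuous L) :
    Continuous fun y => coord ((α y).compContinuousLinearMap (L y)) := by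
  have h1 : Continuous fun y => (matL (L y), coordL (α y)) :=
    (matL.continuous.comp hL).prodMk (coordL.continuous.comp hα)
  have h2 : Continuous fun p : M4 × L2 => pull p.1 p.2 := P204.GX.contDiff_pull.continuous
  refine (h2.comp h1).congr fun y => ?_
  rw [coord_comp, ← coordL_apply]
  rfl

theorem cont_coord {Y : Type*} [TopologicalSpace Y] {α : Y → Form2} (hα : Continuous α) :
    Continuous fun y => coord (α y) := by
  simp only [← coordL_apply]
  exact coordL.continuous.comp hα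

theorem comp_comp (α : Form2) (L M : R4 →L[ℝ] R4) :
    α.compContinuousLinearMap (L.comp M) =
      (α.compContinuousLinearMap L).compContinuousLinearMap M := rfl

theorem comp_id (α : Form2) : α.compContinuousLinearMap (ContinuousLinearMap.id ℝ R4) = α := rfl

theorem smul_comp (c : ℝ) (α : Form2) (L : R4 →L[ℝ] R4) :
    (c • α).compContinuousLinearMap L = c • α.compContinuousLinearMap L := rfl

theorem add_comp (α β : Form2) (L : R4 →L[ℝ] R4) : (α + β).compContinuousLinearMap L =
    α.compContinuousLinearMap L + β.compContinuousLinearMap L := rfl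

theorem tmap_id {V : R4 → R4} (h : SP V) :
    TMap (fun x => x + V x) (ContinuousLinearMap.id ℝ R4) V :=
  ⟨h, fun _ => rfl, fun n => ⟨n, rfl⟩⟩

theorem pbk_eq {V : R4 → R4} (h : SP V) (α : Form 2) :
    pbk (fun x => x + V x) α = fun x => (α (x + V x)).compContinuousLinearMap (jac V x) := by
  funext x
  unfold pbk jac
  rw [(tmap_id h).fderiv_eq]

theorem spc_jac {V : R4 → R4} (h : SP V) {α : Form 2} (hα : SPC α) :
    SPC fun x => (α (x + V x)).compContinuousLinearMap (jac V x) := by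
  rw [← pbk_eq h]; exact (tmap_id h).spc_pbk hα

theorem jac_even {V : R4 → R4} (h : SP V) (o : ∀ x, V (-x) = -V x) (x : R4) :
    jac V (-x) = jac V x := by
  have h1 := ((h.differentiable (-x)).hasFDerivAt.comp x (hasFDerivAt_id x).neg).neg
  have h2 : (-(V ∘ (Neg.neg : R4 → R4))) = V := by
    funext y; simp [o]
  rw [h2] at h1
  unfold jac
  rw [h1.fderiv]
  ext v i
  simp

theorem jac_cont {V : R4 → R4} (h : SP V) : Continuous (jac V) := by
  have := h.fderiv.continuous
  unfold jac; fun_prop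

theorem jac_per {V : R4 → R4} (h : SP V) (x : R4) (n : Fin 4 → ℤ) :
    jac V (x + iv n) = jac V x := by
  unfold jac; rw [h.fderiv.per]

/-- a constant form tames all pairs of a compact family which vanish on the fibres -/
theorem exists_tamer {u v v' : Form 2} (hu : SP u) (hv : SP v) (hv' : SP v')
    (u5 : ∀ x, coord (u x) 5 = 0) (v5 : ∀ x, coord (v x) 5 = 0) (v5' : ∀ x, coord (v' x) 5 = 0)
    (h : ∀ x, ∀ s ∈ Icc (0 : ℝ) 1, PairPos (coord (u x)) ((1 - s) • coord (v x) + s • coord (v' x))) :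
    ∃ f : Form2, 0 < coord f 5 ∧ ∀ x, ∀ s ∈ Icc (0 : ℝ) 1,
      Def3c (coord (u x)) ((1 - s) • coord (v x) + s • coord (v' x)) (coord f) := by
  set e5 : V6 := ![0, 0, 0, 0, 0, 1] with he5
  set a : R4 × ℝ → V6 := fun p => coord (u p.1) with ha
  set b : R4 × ℝ → V6 := fun p => (1 - p.2) • coord (v p.1) + p.2 • coord (v' p.1) with hb
  have ca : Continuous a := hu.coord.continuous.comp continuous_fst
  have cb : Continuous b := by
    have h1 := hv.coord.continuous.comp (continuous_fst (X := R4) (Y := ℝ))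
    have h2 := hv'.coord.continuous.comp (continuous_fst (X := R4) (Y := ℝ))
    exact ((continuous_const.sub continuous_snd).smul h1).add (continuous_snd.smul h2)
  have c1 : Continuous fun p => Dl (a p) (b p) e5 := by unfold Dl P247.DB gd B; fun_prop
  have c2 : Continuous fun p => 2 * gd (a p) (b p) := by unfold gd B; fun_prop
  obtain ⟨C, hC⟩ := ((isCompact_Icc (a := (0 : R4)) (b := 1)).prod
    (isCompact_Icc (a := (0 : ℝ)) (b := 1))).exists_bound_of_continuousOn
    (c1.continuousOn.div c2.continuousOn fun p hp => by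
      have := (h p.1 p.2 hp.2).det
      exact (mul_pos two_pos this).ne')
  refine ⟨ofCoord (e5 + (C + 1) • nu), by rw [coord_ofCoord]; simp [he5], fun x s hs => ?_⟩
  obtain ⟨n, hn⟩ := exists_cube x
  have h1 := hC (x + iv n, s) ⟨hn, hs⟩
  simp only [ha, hb, Pi.div_apply, hu.per, hv.per, hv'.per, Real.norm_eq_abs] at h1
  have h2 := (h x s hs).det
  have h3 := (abs_le.1 h1).1
  rw [le_div_iff₀ (mul_pos two_pos h2)] at h3
  refine def3c_of (h x s hs) ?_
  rw [coord_ofCoord, Dl_add_nu (u5 x) (by simp [v5, v5']), show e5 5 = 1 from rfl]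
  linarith

/-- the coframe, the constant pair and the constant taming form -/
structure Fr (u v : Form 2) (U : R4 → R4) (κ0 κ1 f : Form2) : Prop where
  sp : SP U
  odd : ∀ x, U (-x) = -U x
  eq : ∀ x, u x = κ0.compContinuousLinearMap (jac U x)
  pos : 0 < wedge κ0 κ0
  f5 : 0 < coord f 5
  pp : ∀ x, PairPos (coord (u x)) (coord (κ1.compContinuousLinearMap (jac U x)))
  g : ∀ x, 0 < G (coord (u x)) (coord (v x)) (coord (κ1.compContinuousLinearMap (jac U x)))
  d3 : ∀ x, ∀ s ∈ Icc (0 : ℝ) 1, Def3c (coord (u x))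
    ((1 - s) • coord (v x) + s • coord (κ1.compContinuousLinearMap (jac U x))) (coord f)

theorem exists_fr {u v : Form 2} (hu : SPC u) (hv : SPC v) (eu : ∀ x, u (-x) = u x)
    (u5 : ∀ x, coord (u x) 5 = 0) (v5 : ∀ x, coord (v x) 5 = 0)
    (pp : ∀ x, PairPos (coord (u x)) (coord (v x))) : ∃ U κ0 κ1 f, Fr u v U κ0 κ1 f := by
  obtain ⟨V, sV, b0, b1, oV, hV⟩ := exists_coframe_odd hu u5 (fun x => (pp x).pos) eu
  have sU := SP.mkU sV
  have pm := pairPos_mean hu hv pp
  have hdet : ∀ x, 0 < (jac (mkU V) x).det := fun x => by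
    have h1 : 0 < wedge (u x) (u x) := (pp x).pos
    rw [hV, wedge_pullback] at h1
    exact (pos_iff_pos_of_mul_pos h1).2 pm.pos
  have m5 : comp (mean v) 2 3 = 0 := by
    rw [comp_mean hv.1]
    have : ∀ x, comp (v x) 2 3 = 0 := v5
    simp only [this]
    exact mean_const 0
  have key : ∀ κ1 : Form2, comp κ1 2 3 = 0 → PairPos (coord (mean u)) (coord κ1) →
      (∀ x, coord (κ1.compContinuousLinearMap (jac (mkU V) x)) 5 = 0) ∧
      ∀ x, PairPos (coord (u x)) (coord (κ1.compContinuousLinearMap (jac (mkU V) x))) := by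
    intro κ1 h5 hp
    refine ⟨fun x => ?_, fun x => ⟨(pp x).pos, ?_⟩⟩
    · show P247.comp _ 2 3 = 0
      rw [pullback_comp', h5]
      simp only [jac_mkU sV, b0.pd_two (sV 0), b0.pd_three (sV 0), b1.pd_two (sV 1),
        b1.pd_three (sV 1)]
      simp
    · have h1 := hp.det
      unfold gd at h1 ⊢
      rw [hV x]
      simp only [← wedge_eq_B, wedge_pullback] at h1 ⊢
      have := mul_pos (mul_pos (hdet x) (hdet x)) h1
      linarith
  have fin : ∀ κ1 : Form2, comp κ1 2 3 = 0 → PairPos (coord (mean u)) (coord κ1) →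
      (∀ x, 0 < G (coord (u x)) (coord (v x))
        (coord (κ1.compContinuousLinearMap (jac (mkU V) x)))) → ∃ U κ0 κ1 f, Fr u v U κ0 κ1 f := by
    intro κ1 h5 hp hG
    obtain ⟨k1, k2⟩ := key κ1 h5 hp
    obtain ⟨f, f5, hf⟩ := exists_tamer hu.1 hv.1 (spc_jac sU (SPC.const κ1)).1 u5 v5 k1
      fun x s hs => pairPos_segment (pp x) (k2 x) (hG x) hs
    exact ⟨mkU V, mean u, κ1, f, sU, fun x => funext fun i => oV i x, hV, pm.pos, f5, k2, hG, hf⟩
  obtain ⟨k1, k2⟩ := key _ m5 pm
  have hc : Continuous fun x => G (coord (u x)) (coord (v x))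
      (coord ((mean v).compContinuousLinearMap (jac (mkU V) x))) := by
    have h1 := hu.1.coord.continuous
    have h2 := hv.1.coord.continuous
    have h3 := cont_coord_comp (continuous_const (y := mean v)) (jac_cont sU)
    unfold G B; fun_prop
  rcases sign_const hc (fun x => G_ne_zero (u5 x) (v5 x) (k1 x) (pp x) (k2 x)) with h | h
  · exact fin _ m5 pm h
  · refine fin ((-1 : ℝ) • mean v) (by
      have m6 : coord (mean v) 5 = 0 := m5
      show coord _ 5 = 0
      rw [coord_smul, Pi.smul_apply, m6, smul_zero])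
      ⟨pm.pos, ?_⟩ fun x => ?_
    · have := pm.det
      rw [coord_smul]
      simp only [gd, B_smul_left, B_smul_right] at this ⊢
      linarith
    · have := h x
      rw [smul_comp, coord_smul]
      simp only [G, B_smul_left, B_smul_right] at this ⊢
      linarith

/-- the data on `ℝ⁴` -/
structure Flat (u v g : Form 2) (φ : I16 → R4 → R4) (r : ℝ) : Prop where
  su : SPC u
  sv : SPC v
  eu : ∀ x, u (-x) = u x
  u5 : ∀ x, coord (u x) 5 = 0
  v5 : ∀ x, coord (v x) 5 = 0
  pp : ∀ x, PairPos (coord (u x)) (coord (v x))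
  cg : ContinuousOn g Hfᶜ
  pg : ∀ x ∉ Hf, ∀ n, g (x + iv n) = g x
  g5 : ∀ x ∉ Hf, 0 < coord (g x) 5
  d3 : ∀ x ∉ Hf, Def3c (coord (u x)) (coord (v x)) (coord (g x))
  r_pos : 0 < r
  sφ : ∀ a, ContDiffOn ℝ ∞ (φ a) (ball 0 r)
  oφ : ∀ a, ∀ y ∈ ball (0 : R4) r, φ a (-y) = -φ a y
  dφ : ∀ a, fderiv ℝ (φ a) 0 = ContinuousLinearMap.id ℝ R4
  lu : ∀ a, ∀ y ∈ ball (0 : R4) r,
    u (cp a + y) = (u (cp a)).compContinuousLinearMap (fderiv ℝ (φ a) y)
  lv : ∀ a, ∀ y ∈ ball (0 : R4) r,
    v (cp a + y) = (v (cp a)).compContinuousLinearMap (fderiv ℝ (φ a) y)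

/-- the final pair is the pull-back of `κ0`, `κ1` by `id + V` -/
structure Fin2 (u v : Form 2) (κ0 κ1 f : Form2) (V : R4 → R4) (ρ : ℝ) (μ k y : I16 → ℝ) :
    Prop where
  sp : SP V
  odd : ∀ x, V (-x) = -V x
  pos : 0 < ρ
  le : ρ ≤ 1 / 8
  μ_pos : ∀ a, 0 < μ a
  y_pos : ∀ a, 0 < y a
  d3 : ∀ x, ∀ s ∈ Icc (0 : ℝ) 1, Def3c
    ((1 - s) • coord (u x) + s • coord (κ0.compContinuousLinearMap (jac V x)))
    ((1 - s) • coord (v x) + s • coord (κ1.compContinuousLinearMap (jac V x))) (coord f)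
  near : ∀ q z, ‖z‖ < ρ →
    κ0.compContinuousLinearMap (jac V (hp q + z)) = μ q.1 • u (hp q + z) ∧
    κ1.compContinuousLinearMap (jac V (hp q + z)) = k q.1 • u (hp q + z) + y q.1 • v (hp q + z)

theorem exists_fin2 {u v g : Form 2} {φ : I16 → R4 → R4} {r : ℝ} (h : Flat u v g φ r)
    {U : R4 → R4} {κ0 κ1 f : Form2} (F : Fr u v U κ0 κ1 f) :
    ∃ V ρ μ k y, Fin2 u v κ0 κ1 f V ρ μ k y := by
  choose m hm using fun a => exists_inter (h.pp (cp a)) (F.pp (cp a)) (F.g (cp a))
  set M : I16 → ℝ → R4 →L[ℝ] R4 := fun a t =>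
    (1 - t) • jac U (cp a) + t • (jac U (cp a)).comp (m a) with hM
  have hM' : ∀ a t, M a t =
      (jac U (cp a)).comp ((1 - t) • ContinuousLinearMap.id ℝ R4 + t • m a) := by
    intro a t; ext v i; simp [hM]
  have hev : ∀ᶠ p : (R4 →L[ℝ] R4) × R4 in 𝓝 (0, 0), ∀ a, ∀ st ∈ Icc (0 : ℝ) 1 ×ˢ Icc (0 : ℝ) 1,
      Def3c ((1 - st.1) • coord (u (cp a + p.2)) +
          st.1 • coord (κ0.compContinuousLinearMap (M a st.2 + p.1)))
        ((1 - st.1) • coord (v (cp a + p.2)) +
          st.1 • coord (κ1.compContinuousLinearMap (M a st.2 + p.1))) (coord f) := by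
    refine eventually_all.2 fun a => (isCompact_Icc.prod isCompact_Icc).eventually_forall_of_forall_eventually
      fun st hst => ?_
    have cM : Continuous fun z : ((R4 →L[ℝ] R4) × R4) × ℝ × ℝ => M a z.2.2 + z.1.1 := by
      simp only [hM]; fun_prop
    have c1 : Continuous fun z : ((R4 →L[ℝ] R4) × R4) × ℝ × ℝ => cp a + z.1.2 := by fun_prop
    have c2 : Continuous fun z : ((R4 →L[ℝ] R4) × R4) × ℝ × ℝ => z.2.1 := by fun_prop
    refine d3_eventually
      (((continuous_const.sub c2).smul (cont_coord (h.su.1.continuous.comp c1))).add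
        (c2.smul (cont_coord_comp continuous_const cM))).continuousAt
      (((continuous_const.sub c2).smul (cont_coord (h.sv.1.continuous.comp c1))).add
        (c2.smul (cont_coord_comp continuous_const cM))).continuousAt continuousAt_const ?_
    obtain ⟨s, t⟩ := st
    obtain ⟨⟨s0, s1⟩, ht⟩ : s ∈ Icc (0 : ℝ) 1 ∧ t ∈ Icc (0 : ℝ) 1 := hst
    obtain ⟨μ, k, y, hμ, hy, hy', e0, e1⟩ := hm a t ht
    simp only [Function.comp_apply, add_zero, Pi.sub_apply]
    rw [hM', comp_comp, comp_comp, ← F.eq, coord_comp (u (cp a)), coord_comp (κ1.compContinuousLinearMap _),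
      e0, e1]
    have t1 : 0 ≤ 1 - t := by linarith [ht.2]
    have := d3_mix (F.d3 (cp a)) (x := 1 - s + s * μ) (k := s * k) (y := 1 - s + s * y)
      (y' := s * (1 - t)) (by
        rcases eq_or_lt_of_le s0 with h0 | h0
        · rw [← h0]; norm_num
        · have := mul_pos h0 hμ; linarith) (by have := mul_nonneg s0 hy; linarith)
      (mul_nonneg s0 t1) (by
        have k1 := mul_nonneg s0 hy
        have k2 := mul_nonneg s0 t1
        rcases eq_or_lt_of_le s1 with h0 | h0
        · rw [h0]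
          rcases eq_or_lt_of_le ht.1 with h1 | h1
          · rw [← h1]; linarith
          · linarith [hy' h1]
        · linarith)
    convert this using 1 <;> module
  obtain ⟨η, hη0, hη⟩ := Metric.eventually_nhds_iff.1 hev
  set G : I16 → R4 → R4 := fun a z => (jac U (cp a)).comp (m a) (φ a z) with hG
  have hGd : ∀ a, ∀ z ∈ ball (0 : R4) r,
      fderiv ℝ (G a) z = ((jac U (cp a)).comp (m a)).comp (fderiv ℝ (φ a) z) := fun a z hz =>
    (((jac U (cp a)).comp (m a)).hasFDerivAt.comp z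
      (((h.sφ a).contDiffAt (isOpen_ball.mem_nhds hz)).differentiableAt (by simp)).hasFDerivAt).fderiv
  have hr := h.r_pos
  obtain ⟨V, ρ, ρ', hP⟩ := exists_patch F.sp F.odd hr (G := G)
    (fun a => ((jac U (cp a)).comp (m a)).contDiff.comp_contDiffOn (h.sφ a))
    (fun a z hz => by simp only [hG, h.oφ a z hz, map_neg]) hη0
    (ρ0 := min η (min r (1 / 8))) (by positivity)
  have l1 : ρ ≤ η := hP.le0.trans (min_le_left _ _)
  have l2 : ρ ≤ r := hP.le0.trans ((min_le_right _ _).trans (min_le_left _ _))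
  have l3 : ρ ≤ 1 / 8 := hP.le0.trans ((min_le_right _ _).trans (min_le_right _ _))
  choose μ k y hμ hy hy' e0 e1 using fun a => hm a 1 ⟨zero_le_one, le_rfl⟩
  simp only [sub_self, zero_smul, one_smul, zero_add, add_zero] at e0 e1
  refine ⟨V, ρ', μ, k, y, hP.sp, hP.odd, hP.pos, hP.le.trans l3, hμ, fun a => hy' a one_pos,
    fun x s hs => ?_, fun q z hz => ?_⟩
  · by_cases hx : ∀ q, ρ ≤ ‖x - hp q‖
    · rw [(hP.far x hx).2, ← F.eq, ← add_smul, sub_add_cancel, one_smul]
      exact F.d3 x s hs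
    · push Not at hx
      obtain ⟨q, hq⟩ := hx
      obtain ⟨t, ht, hE⟩ := hP.mid q _ hq
      rw [hGd _ _ (mem_ball_self hr), h.dφ, ContinuousLinearMap.comp_id] at hE
      have := hη (y := (jac V (hp q + (x - hp q)) - M q.1 t, x - hp q)) (by
        rw [Prod.dist_eq, max_lt_iff, dist_zero_right, dist_zero_right]
        exact ⟨hE, hq.trans_le l1⟩) q.1 (s, t) ⟨hs, ht⟩
      simp only [add_sub_cancel, ← SP.hp h.su.1, ← SP.hp h.sv.1] at this
      exact this
  · have hz' : z ∈ ball (0 : R4) r := mem_ball_zero_iff.2 (hz.trans_le (hP.le.trans l2))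
    rw [(hP.near q z hz).2, hGd _ _ hz', SP.hp h.su.1, SP.hp h.sv.1, h.lu _ _ hz', h.lv _ _ hz',
      comp_comp, comp_comp, comp_comp, comp_comp, ← F.eq, ← smul_comp, ← smul_comp, ← smul_comp,
      ← add_comp]
    constructor
    · congr 1
      apply coord_inj
      rw [coord_comp, e0, coord_smul]
    · congr 1
      apply coord_inj
      rw [coord_comp, e1, coord_add, coord_smul, coord_smul]

end Vale.Agent.P247T
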