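import Vale.Agent.P247T.Desc

/-!
# P247T: the two segments on the manifold
-/

set_option linter.all false

open scoped BigOperators ContDiff Topology Manifold
open Set Filter Metric

namespace Vale.Agent.P247T

open Vale.Agent.P247 Vale.Agent.P204.T4 Vale.Agent.P204.Mfd
open Vale.Agent.P247X (Hf)
open Vale.Agent.P247.SCY (ax bx cx cx_add cx_smul quot_cx smooth_add smooth_smul closed_add
  closed_smul continuous_quot)
open Vale.Agent.P247F (triPos_iff posDef_tri hyper_tri lin cx_lin)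

theorem scy_tri {s : ℝ} {a b z : V6} (h : SCY.Def3 s z a b) {x k y c d r : ℝ} (hx : x ≠ 0)
    (hy : y ≠ 0) (hr : r ≠ 0) :
    SCY.Def3 s (c • a + d • b + r • z) (x • a) (k • a + y • b) := by
  intro t p q hne
  have e : t • (c • a + d • b + r • z) + p • x • a + q • (k • a + y • b) =
      (t * r) • z + (p * x + q * k + t * c) • a + (q * y + t * d) • b := by module
  rw [e]
  apply h
  by_contra hcon
  push Not at hcon
  obtain ⟨h3, h1, h2⟩ := hcon
  have hs : t = 0 := (mul_eq_zero.1 h3).resolve_right hr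
  rw [hs, zero_mul, add_zero] at h1 h2
  have hq : q = 0 := (mul_eq_zero.1 h2).resolve_right hy
  rw [hq, zero_mul, add_zero] at h1
  have hp : p = 0 := (mul_eq_zero.1 h1).resolve_right hx
  tauto

variable {X : Type} [TopologicalSpace X] [ChartedSpace E4 X]

/-- the Jacobian matrix of `P` -/
noncomputable def jm (P : R4 → X) (x : R4) : M4 := matL ((toE.symm : E4 →L[ℝ] V4).comp (DP P x))

theorem coord_pb (P : R4 → X) (β : SCY.HS.Form X 2) (x : R4) :
    coord (pb P β x) = pull (jm P x) (cx β (P x)) := by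
  rw [coord_eq]; exact cV_comp_E _ _

theorem pb_add (P : R4 → X) (α β : SCY.HS.Form X 2) (x : R4) :
    pb P (fun z => α z + β z) x = pb P α x + pb P β x := rfl

theorem pb_smul (P : R4 → X) (c : ℝ) (α : SCY.HS.Form X 2) (x : R4) :
    pb P (fun z => c • α z) x = c • pb P α x := rfl

theorem coord_pb_lin (P : R4 → X) (w w' : Fin 3 → SCY.HS.Form X 2) (s : ℝ) (i : Fin 3) (x : R4) :
    coord (pb P (lin w w' s i) x) =
      (1 - s) • coord (pb P (w i) x) + s • coord (pb P (w' i) x) := by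
  rw [coord_pb, coord_pb, coord_pb, show cx (lin w w' s i) (P x) = _ from cx_lin _ _ _ _, pull_add,
    pull_smul, pull_sub]
  module

/-- linear combinations of a triple -/
noncomputable def cb (w : Fin 3 → SCY.HS.Form X 2) (a b c : ℝ) : SCY.HS.Form X 2 :=
  fun z => a • w 0 z + b • w 1 z + c • w 2 z

theorem cx_cb (w : Fin 3 → SCY.HS.Form X 2) (a b c : ℝ) (z : X) :
    cx (cb w a b c) z = a • cx (w 0) z + b • cx (w 1) z + c • cx (w 2) z := by
  show cE (a • bx (w 0) z + b • bx (w 1) z + c • bx (w 2) z) = _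
  rw [map_add, map_add, map_smul, map_smul, map_smul]; rfl

theorem cx_congr {α β : SCY.HS.Form X 2} {z : X} (h : α z = β z) : cx α z = cx β z := by
  unfold cx; rw [h]

variable [IsManifold (𝓡 4) ∞ X] [CompactSpace X] {P : R4 → X} {S : I16 → Set X}
  {μ : SCY.HS.Form X 4} {w : Fin 3 → SCY.HS.Form X 2}

theorem cb_sc (hw : SCY.HS.Hypersymplectic μ w) (a b c : ℝ) :
    SCY.HS.Smooth (cb w a b c) ∧ SCY.HS.Closed (cb w a b c) :=
  ⟨smooth_add (smooth_add (smooth_smul (hw.smooth 0) a) (smooth_smul (hw.smooth 1) b))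
      (smooth_smul (hw.smooth 2) c),
    closed_add (smooth_add (smooth_smul (hw.smooth 0) a) (smooth_smul (hw.smooth 1) b))
      (smooth_smul (hw.smooth 2) c) (closed_add (smooth_smul (hw.smooth 0) a)
        (smooth_smul (hw.smooth 1) b) (closed_smul (hw.closed 0) a) (closed_smul (hw.closed 1) b))
      (closed_smul (hw.closed 2) c)⟩

theorem pos_of (h : Pres P S) (hw : SCY.HS.Hypersymplectic μ w)
    (ori : ∀ x ∉ Hf, 0 < (ax μ (P x) SCY.HS.bas)⁻¹ * det4 (jm P x))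
    {T : Fin 3 → SCY.HS.Form X 2}
    (h1 : ∀ x ∉ Hf, Def3c (coord (pb P (T 0) x)) (coord (pb P (T 1) x)) (coord (pb P (T 2) x)))
    (h2 : ∀ a, ∀ z ∈ S a, ∃ x k y c d r : ℝ, x ≠ 0 ∧ y ≠ 0 ∧ r ≠ 0 ∧ cx (T 0) z = x • cx (w 0) z ∧
      cx (T 1) z = k • cx (w 0) z + y • cx (w 1) z ∧
      cx (T 2) z = c • cx (w 0) z + d • cx (w 1) z + r • cx (w 2) z) (z : X) :
    (SCY.HS.Qm μ T z).PosDef := by
  refine posDef_tri (triPos_iff.2 fun z => ?_) z
  rcases h.surj z with ⟨x, hx, rfl⟩ | ⟨a, ha⟩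
  · have := (d3_of_scy (ori x hx)).2 (h1 x hx)
    rw [coord_pb, coord_pb, coord_pb] at this
    exact scy_of_pull this
  · obtain ⟨x, k, y, c, d, r, hx, hy, hr, e0, e1, e2⟩ := h2 a z ha
    rw [e0, e1, e2]
    exact scy_tri (triPos_iff.1 (hyper_tri hw) z) hx hy hr

theorem quot_pb (α β : SCY.HS.Form X 2) (x : R4) :
    SCY.HS.quot μ α β (P x) * det4 (jm P x) =
      (ax μ (P x) SCY.HS.bas)⁻¹ * wedge (pb P α x) (pb P β x) := by
  rw [quot_cx, wedge_eq_B, coord_pb, coord_pb, B_eq_Q, Q_pull]; ring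

theorem flat_end (hμ : SCY.HS.Volume μ) (h : Pres P S) (hw : SCY.HS.Hypersymplectic μ w)
    (ori : ∀ x ∉ Hf, 0 < (ax μ (P x) SCY.HS.bas)⁻¹ * det4 (jm P x)) {u v : Form 2}
    {φ : I16 → R4 → R4} {r : ℝ} (F : Flat u v (pb P (w 2)) φ r)
    (eu : ∀ x ∉ Hf, pb P (w 0) x = u x) (ev : ∀ x ∉ Hf, pb P (w 1) x = v x) :
    ∃ w', P247X.Chain μ w w' ∧ P247X.IntPair μ w' := by
  obtain ⟨u', v', σ, ε, ρ, κ0, κ1, δ, m, k, y, c, d, O⟩ := exists_out F
  have pcb : ∀ a b c, ∀ x ∉ Hf, pb P (cb w a b c) x = a • u x + b • v x + c • pb P (w 2) x := by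
    intro a b c x hx
    rw [← eu x hx, ← ev x hx]; rfl
  obtain ⟨γ0, s0, c0, p0, n0⟩ := h.exists_desc (β := fun a => cb w (m a) 0 0)
    (fun a => (cb_sc hw _ _ _).1) (fun a => (cb_sc hw _ _ _).2) (α := u')
    (fun x _ => O.s0.1.1.contDiffAt) (fun x _ => O.s0.2 x) (fun x _ n => O.s0.1.per n x)
    (fun x _ => O.e0 x) O.ρ_pos fun a z hz hz' => by
      have := O.n0 (a, 0) z hz'
      rw [hp_zero] at this
      rw [pcb _ _ _ _ hz, this]; module
  obtain ⟨γ1, s1, c1, p1, n1⟩ := h.exists_desc (β := fun a => cb w (k a) (y a) 0)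
    (fun a => (cb_sc hw _ _ _).1) (fun a => (cb_sc hw _ _ _).2) (α := v')
    (fun x _ => O.s1.1.1.contDiffAt) (fun x _ => O.s1.2 x) (fun x _ n => O.s1.1.per n x)
    (fun x _ => O.e1 x) O.ρ_pos fun a z hz hz' => by
      have := O.n1 (a, 0) z hz'
      rw [hp_zero] at this
      rw [pcb _ _ _ _ hz, this]; module
  have sg := fun x hx => h.pb_smooth (hw.smooth 2) (hw.closed 2) (x := x) hx
  obtain ⟨γ2, s2, c2, p2, n2⟩ := h.exists_desc (β := fun a => cb w (c a) (d a) ε)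
    (fun a => (cb_sc hw _ _ _).1) (fun a => (cb_sc hw _ _ _).2)
    (α := fun x => σ x + ε • pb P (w 2) x)
    (fun x hx => O.s2.1.1.contDiffAt.add ((sg x hx).1.const_smul ε))
    (fun x hx => by
      have k : extDeriv (fun y => ε • pb P (w 2) y) x = ε • extDeriv (pb P (w 2)) x :=
        extDeriv_fun_smul ε (pb P (w 2))
      rw [extDeriv_fun_add (O.s2.1.differentiable x)
        (((sg x hx).1.const_smul ε).differentiableAt (by simp)), k, O.s2.2,
        (sg x hx).2, smul_zero, add_zero])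
    (fun x hx n => by rw [O.s2.1.per, h.pb_per _ hx])
    (fun x hx => by rw [O.e2, h.pb_neg _ hx]) O.ρ_pos fun a z hz hz' => by
      have := O.n2 (a, 0) z hz'
      rw [hp_zero] at this
      rw [pcb _ _ _ _ hz, this]
  have x0 : ∀ a, ∀ z ∈ S a, cx γ0 z = m a • cx (w 0) z := fun a z hz => by
    rw [cx_congr (n0 a z hz), cx_cb]; module
  have x1 : ∀ a, ∀ z ∈ S a, cx γ1 z = k a • cx (w 0) z + y a • cx (w 1) z := fun a z hz => by
    rw [cx_congr (n1 a z hz), cx_cb]; module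
  have x2 : ∀ a, ∀ z ∈ S a, cx γ2 z = c a • cx (w 0) z + d a • cx (w 1) z + ε • cx (w 2) z :=
    fun a z hz => by rw [cx_congr (n2 a z hz), cx_cb]
  have pn : ∀ s ∈ Icc (0 : ℝ) 1, ∀ m : ℝ, 0 < m → 1 - s + s * m ≠ 0 := fun s hs m hm => by
    rcases eq_or_lt_of_le hs.1 with h0 | h0
    · rw [← h0]; norm_num
    · have := mul_pos h0 hm; linarith [hs.2]
  set w1 : Fin 3 → SCY.HS.Form X 2 := ![w 0, w 1, γ2] with hw1
  set w2 : Fin 3 → SCY.HS.Form X 2 := ![γ0, γ1, γ2] with hw2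
  have q1 : ∀ s ∈ Icc (0 : ℝ) 1, ∀ z, (SCY.HS.Qm μ (lin w w1 s) z).PosDef := by
    intro s hs
    refine pos_of h hw ori (fun x hx => ?_) fun a z hz =>
      ⟨1, 0, 1, s * c a, s * d a, 1 - s + s * ε, one_ne_zero, one_ne_zero, pn s hs _ O.ε_pos,
        ?_, ?_, ?_⟩
    · simp only [coord_pb_lin, hw1, Matrix.cons_val_zero, Matrix.cons_val_one, Matrix.cons_val,
        ← add_smul, sub_add_cancel, one_smul, eu x hx, ev x hx, p2 x hx]
      exact O.seg1 x hx s hs
    · rw [show cx (lin w w1 s 0) z = _ from cx_lin _ _ _ _]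
      show cx (w 0) z + s • (cx (w 0) z - cx (w 0) z) = _
      module
    · rw [show cx (lin w w1 s 1) z = _ from cx_lin _ _ _ _]
      show cx (w 1) z + s • (cx (w 1) z - cx (w 1) z) = _
      module
    · rw [show cx (lin w w1 s 2) z = _ from cx_lin _ _ _ _]
      show cx (w 2) z + s • (cx γ2 z - cx (w 2) z) = _
      rw [x2 a z hz]; module
  have q2 : ∀ s ∈ Icc (0 : ℝ) 1, ∀ z, (SCY.HS.Qm μ (lin w1 w2 s) z).PosDef := by
    intro s hs
    refine pos_of h hw ori (fun x hx => ?_) fun a z hz =>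
      ⟨1 - s + s * m a, s * k a, 1 - s + s * y a, c a, d a, ε, pn s hs _ (O.μ_pos a),
        pn s hs _ (O.y_pos a), O.ε_pos.ne', ?_, ?_, ?_⟩
    · simp only [coord_pb_lin, hw1, hw2, Matrix.cons_val_zero, Matrix.cons_val_one, Matrix.cons_val,
        ← add_smul, sub_add_cancel, one_smul, eu x hx, ev x hx, p0 x hx, p1 x hx, p2 x hx]
      exact O.seg2 x hx s hs
    · rw [show cx (lin w1 w2 s 0) z = _ from cx_lin _ _ _ _]
      show cx (w 0) z + s • (cx γ0 z - cx (w 0) z) = _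
      rw [x0 a z hz]; module
    · rw [show cx (lin w1 w2 s 1) z = _ from cx_lin _ _ _ _]
      show cx (w 1) z + s • (cx γ1 z - cx (w 1) z) = _
      rw [x1 a z hz]; module
    · rw [show cx (lin w1 w2 s 2) z = _ from cx_lin _ _ _ _]
      show cx γ2 z + s • (cx γ2 z - cx γ2 z) = _
      rw [x2 a z hz]; module
  have hw1' : SCY.HS.Hypersymplectic μ w1 :=
    ⟨forall_fin3 (hw.smooth 0) (hw.smooth 1) s2, forall_fin3 (hw.closed 0) (hw.closed 1) c2,
      fun z => by simpa only [P247F.lin_one] using q1 1 ⟨zero_le_one, le_rfl⟩ z⟩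
  have hw2' : SCY.HS.Hypersymplectic μ w2 :=
    ⟨forall_fin3 s0 s1 s2, forall_fin3 c0 c1 c2,
      fun z => by simpa only [P247F.lin_one] using q2 1 ⟨zero_le_one, le_rfl⟩ z⟩
  refine ⟨w2, P247F.Ch.trans (P247F.Seg.ch hμ ⟨hw, hw1', q1⟩) (P247F.Seg.ch hμ ⟨hw1', hw2', q2⟩),
    hw2', wedge κ0 κ0, wedge κ0 κ1, wedge κ1 κ1,
    fun z => SCY.HS.quot μ γ0 γ0 z / wedge κ0 κ0, fun z => ?_⟩
  have hκ := O.κ_pos.ne'
  have key : ∀ {α β : SCY.HS.Form X 2} {b : ℝ}, SCY.HS.Smooth α → SCY.HS.Smooth β →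
      (∀ x ∉ Hf, wedge (pb P α x) (pb P β x) = δ x * b) →
      SCY.HS.quot μ α β z = SCY.HS.quot μ γ0 γ0 z / wedge κ0 κ0 * b := by
    intro α β b sα sβ hb
    refine closure_minimal (t := {z | SCY.HS.quot μ α β z =
      SCY.HS.quot μ γ0 γ0 z / wedge κ0 κ0 * b}) ?_ (isClosed_eq (continuous_quot hμ sα sβ)
        (((continuous_quot hμ s0 s0).div_const _).mul continuous_const)) (h.dense z)
    rintro _ ⟨x, hx, rfl⟩
    have hd : det4 (jm P x) ≠ 0 := fun h0 => by
      have := ori x hx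
      rw [h0, mul_zero] at this
      exact lt_irrefl _ this
    have k1 := quot_pb (μ := μ) (P := P) α β x
    have k2 := quot_pb (μ := μ) (P := P) γ0 γ0 x
    rw [hb x hx] at k1
    rw [p0 x hx, O.w00] at k2
    show SCY.HS.quot μ α β (P x) = _
    apply mul_right_cancel₀ hd
    rw [k1, div_mul_eq_mul_div, div_mul_eq_mul_div, mul_right_comm, k2]
    field_simp
  exact ⟨key (α := γ0) (β := γ0) s0 s0 fun x hx => by rw [p0 x hx, O.w00],
    key (α := γ0) (β := γ1) s0 s1 fun x hx => by rw [p0 x hx, p1 x hx, O.w01],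
    key (α := γ1) (β := γ1) s1 s1 fun x hx => by rw [p1 x hx, O.w11]⟩

end Vale.Agent.P247T
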